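import Vale.Agent.Lib.P368.Fourier

/-!
Norm bounds for the partial Fourier transform of one conjugated product projector.
-/

set_option linter.unusedSectionVars false
set_option linter.unusedSimpArgs false

namespace Vale.Agent.Lib.P368

open Matrix
open scoped Matrix.Norms.L2Operator ComplexConjugate

theorem ip_self (a : Bool → ℂ) : ip a a = ((‖a false‖ ^ 2 + ‖a true‖ ^ 2 : ℝ) : ℂ) := by
  simp only [ip, Fintype.sum_bool]
  push_cast
  simp only [Complex.star_def]
  rw [Complex.conj_mul', Complex.conj_mul']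
  ring

theorem unit_real {a : Bool → ℂ} (h : ip a a = 1) : ‖a false‖ ^ 2 + ‖a true‖ ^ 2 = 1 := by
  rw [ip_self] at h
  exact_mod_cast h

theorem norm_ip_le {a b : Bool → ℂ} (ha : ip a a = 1) (hb : ip b b = 1) : ‖ip a b‖ ≤ 1 := by
  have h1 := unit_real ha
  have h2 := unit_real hb
  unfold ip
  simp only [Fintype.sum_bool]
  calc ‖star (a true) * b true + star (a false) * b false‖
      ≤ ‖star (a true) * b true‖ + ‖star (a false) * b false‖ := norm_add_le _ _
    _ = ‖a true‖ * ‖b true‖ + ‖a false‖ * ‖b false‖ := by simp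
    _ ≤ 1 := by nlinarith [sq_nonneg (‖a true‖ - ‖b true‖), sq_nonneg (‖a false‖ - ‖b false‖)]

section General

variable {Q : Type*} [Fintype Q] [DecidableEq Q]

theorem projector_norm_le {P : Matrix (Q → Bool) (Q → Bool) ℂ} (h1 : Pᴴ = P) (h2 : P * P = P) :
    ‖P‖ ≤ 1 := by
  have h := Matrix.l2_opNorm_conjTranspose_mul_self P
  rw [h1, h2] at h
  by_contra hc
  have hc' : 1 < ‖P‖ := not_le.mp hc
  nlinarith [norm_nonneg P]

theorem kb_norm_le {T : Finset Q} {a : Q → Bool → ℂ} (h : UnitOn T a) : ‖kb T a a‖ ≤ 1 :=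
  projector_norm_le (kb_conjTranspose T a a) (kb_idem h)

/-- A reflection about a product state on `T`. -/
structure Refl (Q : Type*) [Fintype Q] [DecidableEq Q] where
  T : Finset Q
  r : Q → Bool → ℂ
  unit : UnitOn T r

/-- The matrix of a reflection. -/
noncomputable def Refl.op (g : Refl Q) : Matrix (Q → Bool) (Q → Bool) ℂ :=
  1 - (2 : ℂ) • kb g.T g.r g.r

theorem Refl.op_conj (g : Refl Q) : g.opᴴ = g.op := by
  unfold Refl.op
  rw [conjTranspose_sub, conjTranspose_one, conjTranspose_smul, kb_conjTranspose]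
  simp

theorem Refl.op_sq (g : Refl Q) : g.op * g.op = 1 := by
  unfold Refl.op
  have h := kb_idem g.unit
  have h2 : (1 - (2 : ℂ) • kb g.T g.r g.r) * (1 - (2 : ℂ) • kb g.T g.r g.r)
      = 1 - (4 : ℂ) • kb g.T g.r g.r + (4 : ℂ) • (kb g.T g.r g.r * kb g.T g.r g.r) := by
    simp only [mul_sub, sub_mul, one_mul, mul_one, smul_mul_assoc, mul_smul_comm, smul_smul]
    module
  rw [h2, h]
  module

theorem Refl.op_mem (g : Refl Q) : g.op ∈ SpanOn g.T :=
  Submodule.sub_mem _ (one_mem_spanOn _)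
    (Submodule.smul_mem _ _ (kb_mem_spanOn (Finset.Subset.refl _) _ _))

/-- Conjugating a projector by a reflection gives a projector. -/
theorem conj_projector (g : Refl Q) {A : Matrix (Q → Bool) (Q → Bool) ℂ}
    (h1 : Aᴴ = A) (h2 : A * A = A) :
    (g.op * A * g.op)ᴴ = g.op * A * g.op ∧ (g.op * A * g.op) * (g.op * A * g.op) = g.op * A * g.op := by
  constructor
  · rw [conjTranspose_mul, conjTranspose_mul, Refl.op_conj, h1, Matrix.mul_assoc]
  · calc (g.op * A * g.op) * (g.op * A * g.op)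
        = g.op * A * (g.op * g.op) * A * g.op := by noncomm_ring
      _ = g.op * (A * A) * g.op := by rw [g.op_sq]; noncomm_ring
      _ = g.op * A * g.op := by rw [h2]

end General

section Fourier

variable {n a : ℕ}

/-- A projector has Fourier coefficients of norm at most one half at nonempty character sets. -/
theorem norm_FT_projector_nonempty {X : Matrix (Fin n ⊕ Fin a → Bool) (Fin n ⊕ Fin a → Bool) ℂ}
    (h1 : Xᴴ = X) (h2 : X * X = X) {I : Finset (Fin n)} (hI : I.Nonempty) :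
    ‖FT I X‖ ≤ 1 / 2 := by
  set Y : Matrix (Fin n ⊕ Fin a → Bool) (Fin n ⊕ Fin a → Bool) ℂ := (2 : ℂ) • X - 1 with hY
  have hYstar : Yᴴ = Y := by
    rw [hY, conjTranspose_sub, conjTranspose_one, conjTranspose_smul, h1]
    simp
  have hYsq : Y * Y = 1 := by
    rw [hY]
    have h4 : ((2 : ℂ) • X - 1) * ((2 : ℂ) • X - 1) = (4 : ℂ) • (X * X) - (4 : ℂ) • X + 1 := by
      simp only [mul_sub, sub_mul, one_mul, mul_one, smul_mul_assoc, mul_smul_comm, smul_smul]
      module
    rw [h4, h2]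
    module
  have hYnorm : ‖Y‖ ≤ 1 := by
    have h := Matrix.l2_opNorm_conjTranspose_mul_self Y
    rw [hYstar, hYsq] at h
    have h3 : ‖(1 : Matrix (Fin n ⊕ Fin a → Bool) (Fin n ⊕ Fin a → Bool) ℂ)‖ = 1 := norm_one
    rw [h3] at h
    nlinarith [norm_nonneg Y]
  have hX : X = (1 / 2 : ℂ) • Y + (1 / 2 : ℂ) • 1 := by
    rw [hY]
    module
  rw [hX, FT_add, FT_smul, FT_smul, FT_one_of_nonempty hI, smul_zero, add_zero, norm_smul]
  have : ‖(1 / 2 : ℂ)‖ = 1 / 2 := by simp
  rw [this]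
  calc 1 / 2 * ‖FT I Y‖ ≤ 1 / 2 * ‖Y‖ := by gcongr; exact norm_FT_le I Y
    _ ≤ 1 / 2 * 1 := by gcongr
    _ = 1 / 2 := by ring

/-- The bound on the coefficient of one input for a rank one or identity site. -/
theorem norm_cf_le (K : Finset (Fin n)) {U : Finset (Fin n ⊕ Fin a)}
    {u : Fin n ⊕ Fin a → Bool → ℂ} (h : UnitOn U u) (i : Fin n) :
    ‖cf K (if Sum.inl i ∈ U then ketbra (u (Sum.inl i)) (u (Sum.inl i)) else 1) i‖ ≤
      if i ∈ K then 1 / 2 else 1 := by
  by_cases hi : Sum.inl i ∈ U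
  · have h1 := unit_real (h _ hi)
    have hf : ketbra (u (Sum.inl i)) (u (Sum.inl i)) false false
        = ((‖u (Sum.inl i) false‖ ^ 2 : ℝ) : ℂ) := by
      simp only [ketbra]
      push_cast
      rw [Complex.star_def, Complex.mul_conj']
    have ht : ketbra (u (Sum.inl i)) (u (Sum.inl i)) true true
        = ((‖u (Sum.inl i) true‖ ^ 2 : ℝ) : ℂ) := by
      simp only [ketbra]
      push_cast
      rw [Complex.star_def, Complex.mul_conj']
    simp only [hi, if_true, cf, hf, ht]
    by_cases hK : i ∈ K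
    · simp only [hK, if_true]
      have : (1 / 2 : ℂ) * (((‖u (Sum.inl i) false‖ ^ 2 : ℝ) : ℂ) + -1 * ((‖u (Sum.inl i) true‖ ^ 2 : ℝ) : ℂ))
          = (((1 / 2) * (‖u (Sum.inl i) false‖ ^ 2 - ‖u (Sum.inl i) true‖ ^ 2) : ℝ) : ℂ) := by
        push_cast; ring
      rw [this, Complex.norm_real, Real.norm_eq_abs, abs_le]
      constructor <;> nlinarith [sq_nonneg ‖u (Sum.inl i) false‖, sq_nonneg ‖u (Sum.inl i) true‖]
    · simp only [hK, if_false]
      have : (1 / 2 : ℂ) * (((‖u (Sum.inl i) false‖ ^ 2 : ℝ) : ℂ) + 1 * ((‖u (Sum.inl i) true‖ ^ 2 : ℝ) : ℂ))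
          = (((1 / 2) * (‖u (Sum.inl i) false‖ ^ 2 + ‖u (Sum.inl i) true‖ ^ 2) : ℝ) : ℂ) := by
        push_cast; ring
      rw [this, Complex.norm_real, Real.norm_eq_abs, abs_le]
      constructor <;> nlinarith [sq_nonneg ‖u (Sum.inl i) false‖, sq_nonneg ‖u (Sum.inl i) true‖]
  · simp only [hi, if_false]
    by_cases hK : i ∈ K
    · rw [cf_one_mem hK]; simp [hK]
    · rw [cf_one_not_mem hK]; simp [hK]

theorem prod_half_ite (K : Finset (Fin n)) :
    ∏ i, (if i ∈ K then (1 / 2 : ℝ) else 1) = (1 / 2) ^ K.card := by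
  rw [Finset.prod_ite_mem]
  simp

/-- The Fourier transform of a product projector. -/
theorem norm_FT_kb (K : Finset (Fin n)) {U : Finset (Fin n ⊕ Fin a)}
    {u : Fin n ⊕ Fin a → Bool → ℂ} (h : UnitOn U u) :
    ‖FT K (kb U u u)‖ ≤ (1 / 2) ^ K.card := by
  unfold kb
  rw [FT_tensor, norm_smul, norm_prod]
  have h1 : ∏ i, ‖cf K (if Sum.inl i ∈ U then ketbra (u (Sum.inl i)) (u (Sum.inl i)) else 1) i‖
      ≤ (1 / 2) ^ K.card := by
    rw [← prod_half_ite K]
    apply Finset.prod_le_prod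
    · intro i _; exact norm_nonneg _
    · intro i _; exact norm_cf_le K h i
  set U' : Finset (Fin a) := Finset.univ.filter (fun j => Sum.inr j ∈ U) with hU'
  set u' : Fin a → Bool → ℂ := fun j => u (Sum.inr j) with hu'
  have h2 : tensorMat (fun j : Fin a => if Sum.inr j ∈ U then
      ketbra (u (Sum.inr j)) (u (Sum.inr j)) else 1) = kb U' u' u' := by
    unfold kb
    apply tensorMat_congr
    intro j
    simp [hU', hu']
  have h3 : UnitOn U' u' := by
    intro j hj
    apply h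
    simpa [hU'] using hj
  rw [h2]
  calc _ ≤ (1 / 2 : ℝ) ^ K.card * 1 := by
        gcongr
        exact kb_norm_le h3
    _ = _ := by ring

end Fourier

end Vale.Agent.Lib.P368
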