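import Vale.Agent.Lib.P368.KeyLemma

/-!
The bound for one reflection layer acting on the inputs, for product projector observables and
an arbitrary ancilla state.
-/

set_option linter.unusedSectionVars false
set_option linter.unusedSimpArgs false
set_option linter.unusedVariables false

namespace Vale.Agent.Lib.P368

open Matrix
open scoped Matrix.Norms.L2Operator ComplexConjugate

section General

variable {Q : Type*} [Fintype Q] [DecidableEq Q]

theorem merge_self (S : Finset Q) (r : Q → Bool → ℂ) : merge S r r = r := by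
  funext q
  by_cases h : q ∈ S <;> simp [merge, h]

theorem kb_split {T S : Finset Q} (hS : S ⊆ T) (r : Q → Bool → ℂ) :
    kb T r r = kb S r r * kb (T \ S) r r := by
  rw [kb_mul_disjoint Finset.disjoint_sdiff, merge_self, Finset.union_sdiff_of_subset hS]

theorem kb_split' (S T : Finset Q) (r : Q → Bool → ℂ) :
    kb S r r = kb (S ∩ T) r r * kb (S \ T) r r := by
  have h : S ∩ T ∪ S \ T = S := by
    ext q
    by_cases hq : q ∈ T <;> simp [hq]
  rw [kb_mul_disjoint (Finset.disjoint_sdiff_inter S T).symm, merge_self, h]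

theorem UnitOn.mono {S T : Finset Q} {a : Q → Bool → ℂ} (h : UnitOn T a) (hS : S ⊆ T) :
    UnitOn S a := fun q hq => h q (hS hq)

theorem gate_conj_decomp (R p A : Matrix (Q → Bool) (Q → Bool) ℂ) (hpA : p * A = A * p)
    (hpR : p * R = R * p) (hpp : p * p = p) :
    (1 - (2 : ℂ) • (R * p)) * A * (1 - (2 : ℂ) • (R * p)) =
      A * (1 - p) + ((1 - (2 : ℂ) • R) * A * (1 - (2 : ℂ) • R)) * p := by
  have h1 : ∀ x, p * (A * x) = A * (p * x) := fun x => by
    rw [← Matrix.mul_assoc, hpA, Matrix.mul_assoc]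
  have h2 : ∀ x, p * (R * x) = R * (p * x) := fun x => by
    rw [← Matrix.mul_assoc, hpR, Matrix.mul_assoc]
  have h3 : ∀ x, p * (p * x) = p * x := fun x => by
    rw [← Matrix.mul_assoc, hpp]
  simp only [sub_mul, mul_sub, one_mul, mul_one, smul_mul_assoc, mul_smul_comm, smul_smul,
    Matrix.mul_assoc, h1, h2, h3, hpA, hpR, hpp]
  module

/-- The matrix of a list of reflections. -/
noncomputable def layerOp (L : List (Refl Q)) : Matrix (Q → Bool) (Q → Bool) ℂ :=
  (L.map Refl.op).prod

theorem layerOp_mem {T : Finset Q} {L : List (Refl Q)} (h : ∀ g ∈ L, g.T ⊆ T) :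
    layerOp L ∈ SpanOn T := by
  induction L with
  | nil =>
    simpa [layerOp] using one_mem_spanOn T
  | cons g L ih =>
    have h1 : layerOp (g :: L) = g.op * layerOp L := by simp [layerOp]
    rw [h1]
    exact mul_mem_spanOn (spanOn_mono (h g (by simp)) g.op_mem)
      (ih (fun g' hg' => h g' (by simp [hg'])))

theorem layerOp_unitary (L : List (Refl Q)) : (layerOp L)ᴴ * layerOp L = 1 := by
  induction L with
  | nil => simp [layerOp]
  | cons g L ih =>
    have h1 : layerOp (g :: L) = g.op * layerOp L := by simp [layerOp]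
    rw [h1, conjTranspose_mul, g.op_conj]
    calc (layerOp L)ᴴ * g.op * (g.op * layerOp L)
        = (layerOp L)ᴴ * (g.op * g.op) * layerOp L := by
          simp only [Matrix.mul_assoc]
      _ = 1 := by rw [g.op_sq, Matrix.mul_one, ih]

end General

section Fourier

variable {n a : ℕ}

/-- Exponent of one half for one gate with `t` character variables. -/
def ex (t : ℕ) : ℕ := if t = 0 then 0 else if t = 1 then 1 else t - 1

theorem le_two_mul_ex (t : ℕ) : t ≤ 2 * ex t := by
  unfold ex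
  split_ifs <;> omega

theorem le_ex_add_one (t : ℕ) : t ≤ ex t + 1 := by
  unfold ex
  split_ifs <;> omega

theorem block_B2 (g : Refl (Fin n ⊕ Fin a)) {S : Finset (Fin n ⊕ Fin a)} (hS : S ⊆ g.T)
    {φ : Fin n ⊕ Fin a → Bool → ℂ} (hφ : UnitOn S φ) (I : Finset (Fin n)) :
    ‖FT I (g.op * kb S φ φ * g.op)‖ ≤ 2 * (1 / 2) ^ I.card := by
  set E := g.T \ S with hE
  set p := kb E g.r g.r with hp
  set R := kb S g.r g.r with hR
  set A := kb S φ φ with hA
  have hdisj : Disjoint S E := Finset.disjoint_sdiff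
  have hrS : UnitOn S g.r := g.unit.mono hS
  have hrE : UnitOn E g.r := g.unit.mono Finset.sdiff_subset
  have hop : g.op = 1 - (2 : ℂ) • (R * p) := by
    unfold Refl.op
    rw [kb_split hS g.r]
  have hpA : p * A = A * p := (kb_comm_disjoint hdisj _ _ _ _).symm
  have hpR : p * R = R * p := (kb_comm_disjoint hdisj _ _ _ _).symm
  have hpp : p * p = p := kb_idem hrE
  have hX : g.op * A * g.op = A * (1 - p) + ((1 - (2 : ℂ) • R) * A * (1 - (2 : ℂ) • R)) * p := by
    rw [hop]
    exact gate_conj_decomp R p A hpA hpR hpp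
  set W := (1 - (2 : ℂ) • R) * A * (1 - (2 : ℂ) • R) with hW
  set IJ := I.filter (fun i => Sum.inl i ∈ S) with hIJ
  set IE := I.filter (fun i => ¬ Sum.inl i ∈ S) with hIE
  have hI : I = IJ ∪ IE := (Finset.filter_union_filter_not_eq _ _).symm
  have hcard : IJ.card + IE.card = I.card := Finset.card_filter_add_card_filter_not _
  have hIJS : ∀ i ∈ IJ, Sum.inl i ∈ S := fun i hi => (Finset.mem_filter.mp hi).2
  have hIES : ∀ i ∈ IE, Sum.inl i ∉ S := fun i hi => (Finset.mem_filter.mp hi).2
  have hASpan : A ∈ SpanOn S := kb_mem_spanOn (Finset.Subset.refl _) _ _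
  have hpSpan : p ∈ SpanOn Sᶜ := by
    apply kb_mem_spanOn
    intro q hq
    simp only [hE, Finset.mem_sdiff] at hq
    simpa using hq.2
  have hoSpan : (1 - p) ∈ SpanOn Sᶜ := Submodule.sub_mem _ (one_mem_spanOn _) hpSpan
  have hRSpan : (1 - (2 : ℂ) • R) ∈ SpanOn S :=
    Submodule.sub_mem _ (one_mem_spanOn _)
      (Submodule.smul_mem _ _ (kb_mem_spanOn (Finset.Subset.refl _) _ _))
  have hWSpan : W ∈ SpanOn S := mul_mem_spanOn (mul_mem_spanOn hRSpan hASpan) hRSpan
  have hFT : FT I (g.op * A * g.op) = FT IJ A * FT IE (1 - p) + FT IJ W * FT IE p := by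
    rw [hX, FT_add]
    conv_lhs => rw [hI]
    rw [FT_mul hIJS hIES hASpan hoSpan, FT_mul hIJS hIES hWSpan hpSpan]
  have hb1 : ‖FT IJ A‖ ≤ (1 / 2) ^ IJ.card := norm_FT_kb IJ hφ
  have hb2 : ‖FT IE p‖ ≤ (1 / 2) ^ IE.card := norm_FT_kb IE hrE
  have hb3 : ‖FT IJ W‖ ≤ (1 / 2) ^ IJ.card := norm_FT_W hφ hrS hIJS
  have hb4 : ‖FT IE (1 - p)‖ ≤ (1 / 2) ^ IE.card := by
    rcases IE.eq_empty_or_nonempty with h | h
    · rw [h]
      simp only [Finset.card_empty, pow_zero]
      refine (norm_FT_le _ _).trans ?_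
      apply projector_norm_le
      · rw [conjTranspose_sub, conjTranspose_one, hp, kb_conjTranspose]
      · have : (1 - p) * (1 - p) = 1 - p - p + p * p := by noncomm_ring
        rw [this, hpp]
        abel
    · rw [FT_sub, FT_one_of_nonempty h, zero_sub, norm_neg]
      exact hb2
  rw [hFT]
  have hpow : (1 / 2 : ℝ) ^ I.card = (1 / 2) ^ IJ.card * (1 / 2) ^ IE.card := by
    rw [← pow_add, hcard]
  calc ‖FT IJ A * FT IE (1 - p) + FT IJ W * FT IE p‖
      ≤ ‖FT IJ A * FT IE (1 - p)‖ + ‖FT IJ W * FT IE p‖ := norm_add_le _ _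
    _ ≤ ‖FT IJ A‖ * ‖FT IE (1 - p)‖ + ‖FT IJ W‖ * ‖FT IE p‖ :=
        add_le_add (norm_mul_le _ _) (norm_mul_le _ _)
    _ ≤ (1 / 2) ^ IJ.card * (1 / 2) ^ IE.card + (1 / 2) ^ IJ.card * (1 / 2) ^ IE.card := by
        gcongr
    _ = 2 * (1 / 2) ^ I.card := by rw [hpow]; ring

theorem block_bound (g : Refl (Fin n ⊕ Fin a)) {S : Finset (Fin n ⊕ Fin a)} (hS : S ⊆ g.T)
    {φ : Fin n ⊕ Fin a → Bool → ℂ} (hφ : UnitOn S φ) (I : Finset (Fin n)) :
    ‖FT I (g.op * kb S φ φ * g.op)‖ ≤ (1 / 2) ^ ex I.card := by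
  obtain ⟨hA1, hA2⟩ := conj_projector g (kb_conjTranspose S φ φ) (kb_idem hφ)
  unfold ex
  split_ifs with h0 h1
  · simp only [pow_zero]
    exact (norm_FT_le _ _).trans (projector_norm_le hA1 hA2)
  · have hne : I.Nonempty := Finset.card_pos.mp (by omega)
    simpa using norm_FT_projector_nonempty hA1 hA2 hne
  · have h2 : I.card = (I.card - 1) + 1 := by omega
    calc ‖FT I (g.op * kb S φ φ * g.op)‖ ≤ 2 * (1 / 2) ^ I.card := block_B2 g hS hφ I
      _ = (1 / 2) ^ (I.card - 1) := by
        conv_lhs => rw [h2, pow_succ]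
        ring

/-- The main bound for a reflection layer acting on the inputs. -/
theorem claim (L : List (Refl (Fin n ⊕ Fin a))) (hL : L.Pairwise (fun g h => Disjoint g.T h.T)) :
    ∀ (K : Finset (Fin n)) (S : Finset (Fin n ⊕ Fin a)) (φ : Fin n ⊕ Fin a → Bool → ℂ),
      UnitOn S φ → ∃ e : ℕ, K.card ≤ 2 * e ∧
        ‖FT K ((layerOp L)ᴴ * kb S φ φ * layerOp L)‖ ≤ (1 / 2) ^ e ∧
        ∀ g ∈ L, (∀ i ∈ K, Sum.inl i ∈ g.T) → K.card ≤ e + 1 := by
  induction L with
  | nil =>
    intro K S φ hφ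
    refine ⟨K.card, by omega, ?_, by simp⟩
    have h1 : layerOp ([] : List (Refl (Fin n ⊕ Fin a))) = 1 := by simp [layerOp]
    rw [h1]
    simpa using norm_FT_kb K hφ
  | cons g L ih =>
    intro K S φ hφ
    rw [List.pairwise_cons] at hL
    obtain ⟨hg, hL'⟩ := hL
    have hsub : ∀ h ∈ L, h.T ⊆ g.Tᶜ := by
      intro h hh q hq
      simp only [Finset.mem_compl]
      exact fun hq' => Finset.disjoint_left.mp (hg h hh) hq' hq
    set QL := layerOp L with hQL
    have hQLmem : QL ∈ SpanOn g.Tᶜ := layerOp_mem hsub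
    have hQLsmem : QLᴴ ∈ SpanOn g.Tᶜ := conjTranspose_mem_spanOn hQLmem
    have h1 : layerOp (g :: L) = g.op * QL := by simp [layerOp, hQL]
    set A1 := kb (S ∩ g.T) φ φ with hA1
    set A2 := kb (S \ g.T) φ φ with hA2
    have hsplit : kb S φ φ = A1 * A2 := kb_split' S g.T φ
    have hA2mem : A2 ∈ SpanOn g.Tᶜ := by
      apply kb_mem_spanOn
      intro q hq
      simp only [Finset.mem_sdiff] at hq
      simpa using hq.2
    have hdisj : Disjoint g.T g.Tᶜ := disjoint_compl_right
    set X := g.op * A1 * g.op with hX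
    have hXmem : X ∈ SpanOn g.T :=
      mul_mem_spanOn (mul_mem_spanOn g.op_mem (kb_mem_spanOn Finset.inter_subset_right _ _)) g.op_mem
    set O' := QLᴴ * A2 * QL with hO'
    have hO'mem : O' ∈ SpanOn g.Tᶜ := mul_mem_spanOn (mul_mem_spanOn hQLsmem hA2mem) hQLmem
    have hcomm1 : g.op * A2 = A2 * g.op := commute_spanOn hdisj g.op_mem hA2mem
    have hcomm2 : X * QLᴴ = QLᴴ * X := commute_spanOn hdisj hXmem hQLsmem
    have hO : (layerOp (g :: L))ᴴ * kb S φ φ * layerOp (g :: L) = X * O' := by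
      rw [h1, conjTranspose_mul, g.op_conj, hsplit, hO']
      calc QLᴴ * g.op * (A1 * A2) * (g.op * QL)
          = QLᴴ * (g.op * A1 * (A2 * g.op)) * QL := by simp only [Matrix.mul_assoc]
        _ = QLᴴ * (g.op * A1 * (g.op * A2)) * QL := by rw [hcomm1]
        _ = QLᴴ * X * A2 * QL := by simp only [hX, Matrix.mul_assoc]
        _ = X * QLᴴ * A2 * QL := by rw [hcomm2]
        _ = X * (QLᴴ * A2 * QL) := by simp only [Matrix.mul_assoc]
    set I := K.filter (fun i => Sum.inl i ∈ g.T) with hI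
    set K' := K.filter (fun i => ¬ Sum.inl i ∈ g.T) with hK'
    have hK : K = I ∪ K' := (Finset.filter_union_filter_not_eq _ _).symm
    have hcard : I.card + K'.card = K.card := Finset.card_filter_add_card_filter_not _
    have hIT : ∀ i ∈ I, Sum.inl i ∈ g.T := fun i hi => (Finset.mem_filter.mp hi).2
    have hK'T : ∀ i ∈ K', Sum.inl i ∉ g.T := fun i hi => (Finset.mem_filter.mp hi).2
    have hFT : FT K (X * O') = FT I X * FT K' O' := by
      conv_lhs => rw [hK]
      exact FT_mul hIT hK'T hXmem hO'mem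
    obtain ⟨e', he1, he2, he3⟩ := ih hL' K' (S \ g.T) φ (hφ.mono Finset.sdiff_subset)
    refine ⟨ex I.card + e', ?_, ?_, ?_⟩
    · have := le_two_mul_ex I.card
      omega
    · rw [hO, hFT, pow_add]
      calc ‖FT I X * FT K' O'‖ ≤ ‖FT I X‖ * ‖FT K' O'‖ := norm_mul_le _ _
        _ ≤ (1 / 2) ^ ex I.card * (1 / 2) ^ e' := by
            gcongr
            · exact block_bound g Finset.inter_subset_right (hφ.mono Finset.inter_subset_left) I
    · intro h hh hKh
      rcases List.mem_cons.mp hh with rfl | hh'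
      · have hK'0 : K' = ∅ := by
          apply Finset.eq_empty_of_forall_notMem
          intro i hi
          exact (hK'T i hi) (hKh i ((Finset.mem_filter.mp hi).1))
        have : K'.card = 0 := by simp [hK'0]
        have := le_ex_add_one I.card
        omega
      · have hI0 : I = ∅ := by
          apply Finset.eq_empty_of_forall_notMem
          intro i hi
          have h5 := hKh i ((Finset.mem_filter.mp hi).1)
          exact Finset.disjoint_left.mp (hg h hh') (hIT i hi) h5
        have hKK' : ∀ i ∈ K', Sum.inl i ∈ h.T := fun i hi => hKh i ((Finset.mem_filter.mp hi).1)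
        have h6 := he3 h hh' hKK'
        have : I.card = 0 := by simp [hI0]
        have h7 : ex 0 = 0 := rfl
        rw [this, h7]
        omega

end Fourier

end Vale.Agent.Lib.P368
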