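import Mathlib

/-!
Definitions for QAC circuits on a finite set `Q` of qubits.

Computational basis states are labelled by functions `Q → Bool`, operators are matrices
indexed by these labels.
-/

namespace Vale.Agent.Lib.P368

open Matrix

/-- A generalized Toffoli gate: a nonempty set of control qubits and a target qubit that is
not a control. -/
structure Toffoli (Q : Type*) where
  controls : Finset Q
  target : Q
  controls_nonempty : controls.Nonempty
  target_not_mem : target ∉ controls

/-- The set of qubits a gate acts on. -/
def Toffoli.support {Q : Type*} [DecidableEq Q] (g : Toffoli Q) : Finset Q :=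
  insert g.target g.controls

/-- The action on basis labels: the target bit is flipped iff all control bits are `true`. -/
def Toffoli.act {Q : Type*} [DecidableEq Q] (g : Toffoli Q) (s : Q → Bool) : Q → Bool :=
  if ∀ c ∈ g.controls, s c = true then Function.update s g.target (!s g.target) else s

/-- The matrix of a gate: `|t⟩ ↦ |g.act t⟩`. -/
def Toffoli.mat {Q : Type*} [Fintype Q] [DecidableEq Q] (g : Toffoli Q) :
    Matrix (Q → Bool) (Q → Bool) ℂ :=
  fun s t => if s = g.act t then 1 else 0

/-- The matrix of a list of gates (the product of their matrices). For a layer the supports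
are pairwise disjoint, so the order does not matter. -/
noncomputable def layerMat {Q : Type*} [Fintype Q] [DecidableEq Q] (L : List (Toffoli Q)) :
    Matrix (Q → Bool) (Q → Bool) ℂ :=
  (L.map Toffoli.mat).prod

/-- The tensor product of one-qubit matrices `U q`, one on each qubit. -/
def tensorMat {Q : Type*} [Fintype Q] (U : Q → Matrix Bool Bool ℂ) :
    Matrix (Q → Bool) (Q → Bool) ℂ :=
  fun s t => ∏ q, U q (s q) (t q)

/-- A QAC circuit: a list of layers, each consisting of arbitrary one-qubit unitaries on all
qubits (possibly identities) followed by generalized Toffoli gates with pairwise disjoint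
supports, and finally one more layer of one-qubit unitaries. The entangling depth of the
circuit is at most the number of entries of `layers`. The first entry of `layers` is applied
first. -/
structure Circuit (Q : Type*) [DecidableEq Q] where
  layers : List ((Q → Matrix.unitaryGroup Bool ℂ) × List (Toffoli Q))
  final : Q → Matrix.unitaryGroup Bool ℂ
  disjoint : ∀ l ∈ layers, l.2.Pairwise (fun g h => Disjoint g.support h.support)

/-- The matrix of a list of layers; the head of the list is applied first. -/
noncomputable def layersMat {Q : Type*} [Fintype Q] [DecidableEq Q] :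
    List ((Q → Matrix.unitaryGroup Bool ℂ) × List (Toffoli Q)) →
      Matrix (Q → Bool) (Q → Bool) ℂ
  | [] => 1
  | l :: ls => layersMat ls *
      (layerMat l.2 * tensorMat (fun q => (l.1 q : Matrix Bool Bool ℂ)))

/-- The matrix (unitary) of a circuit. -/
noncomputable def Circuit.mat {Q : Type*} [Fintype Q] [DecidableEq Q] (c : Circuit Q) :
    Matrix (Q → Bool) (Q → Bool) ℂ :=
  tensorMat (fun q => (c.final q : Matrix Bool Bool ℂ)) * layersMat c.layers

/-- The initial state on `n` input qubits and `a` ancilla qubits: the inputs are in the basis
state `x`, the ancillas are in the state with amplitudes `res`. -/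
def initState {n a : ℕ} (x : Fin n → Bool) (res : (Fin a → Bool) → ℂ) :
    (Fin n ⊕ Fin a → Bool) → ℂ :=
  fun s => if (fun i => s (Sum.inl i)) = x then res (fun j => s (Sum.inr j)) else 0

/-- The ancilla state `|0…0⟩`. -/
def zeroAncilla {a : ℕ} : (Fin a → Bool) → ℂ :=
  fun y => if y = (fun _ => false) then 1 else 0

/-- The parity of an input string. -/
def par {n : ℕ} (x : Fin n → Bool) : Bool :=
  decide (Odd (Finset.univ.filter (fun i => x i = true)).card)

/-- The parity correlation of a circuit measured on qubit `m` with ancilla state `res`: the
average over uniform `x` of `Pr[correct] - Pr[wrong]`, where the measurement outcome is the bit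
`s m` of the basis label `s`, and `s` occurs with probability the squared modulus of its
amplitude. -/
noncomputable def parityCorrelation {n a : ℕ} (c : Circuit (Fin n ⊕ Fin a))
    (m : Fin n ⊕ Fin a) (res : (Fin a → Bool) → ℂ) : ℝ :=
  (1 / 2 ^ n : ℝ) * ∑ x : Fin n → Bool, ∑ s : Fin n ⊕ Fin a → Bool,
    (if s m = par x then (1 : ℝ) else -1) * ‖(c.mat *ᵥ initState x res) s‖ ^ 2

end Vale.Agent.Lib.P368
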