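import Vale.Agent.Lib.P368.Tensor

/-!
Slices of operators at fixed input bits and their partial Fourier transform.
-/

set_option linter.unusedSectionVars false
set_option linter.unusedSimpArgs false

namespace Vale.Agent.Lib.P368

open Matrix
open scoped Matrix.Norms.L2Operator

variable {n a : ℕ}

/-- Basis label of inputs and ancillas. -/
def join (x : Fin n → Bool) (y : Fin a → Bool) : Fin n ⊕ Fin a → Bool := Sum.elim x y

theorem join_injective (x : Fin n → Bool) : Function.Injective (join (a := a) x) := by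
  intro y z h
  funext j
  exact congrFun h (Sum.inr j)

/-- The block of an operator at fixed input value `x`. -/
def slice (x : Fin n → Bool) (X : Matrix (Fin n ⊕ Fin a → Bool) (Fin n ⊕ Fin a → Bool) ℂ) :
    Matrix (Fin a → Bool) (Fin a → Bool) ℂ :=
  fun y z => X (join x y) (join x z)

/-- The character of the subset `K` of inputs. -/
def chi (K : Finset (Fin n)) (x : Fin n → Bool) : ℂ := ∏ i ∈ K, if x i then -1 else 1

/-- The partial Fourier transform: the average of the slices against a character. -/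
noncomputable def FT (K : Finset (Fin n))
    (X : Matrix (Fin n ⊕ Fin a → Bool) (Fin n ⊕ Fin a → Bool) ℂ) :
    Matrix (Fin a → Bool) (Fin a → Bool) ℂ :=
  ((1 : ℂ) / 2 ^ n) • ∑ x : Fin n → Bool, chi K x • slice x X

theorem slice_add (x : Fin n → Bool) (X Y : Matrix (Fin n ⊕ Fin a → Bool) (Fin n ⊕ Fin a → Bool) ℂ) :
    slice x (X + Y) = slice x X + slice x Y := by
  ext y z; simp [slice]

theorem slice_sub (x : Fin n → Bool) (X Y : Matrix (Fin n ⊕ Fin a → Bool) (Fin n ⊕ Fin a → Bool) ℂ) :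
    slice x (X - Y) = slice x X - slice x Y := by
  ext y z; simp [slice]

theorem slice_smul (x : Fin n → Bool) (c : ℂ)
    (X : Matrix (Fin n ⊕ Fin a → Bool) (Fin n ⊕ Fin a → Bool) ℂ) :
    slice x (c • X) = c • slice x X := by
  ext y z; simp [slice]

theorem FT_add (K : Finset (Fin n)) (X Y : Matrix (Fin n ⊕ Fin a → Bool) (Fin n ⊕ Fin a → Bool) ℂ) :
    FT K (X + Y) = FT K X + FT K Y := by
  unfold FT
  rw [← smul_add, ← Finset.sum_add_distrib]
  congr 1
  refine Finset.sum_congr rfl (fun x _ => ?_)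
  rw [slice_add, smul_add]

theorem FT_sub (K : Finset (Fin n)) (X Y : Matrix (Fin n ⊕ Fin a → Bool) (Fin n ⊕ Fin a → Bool) ℂ) :
    FT K (X - Y) = FT K X - FT K Y := by
  unfold FT
  rw [← smul_sub, ← Finset.sum_sub_distrib]
  congr 1
  refine Finset.sum_congr rfl (fun x _ => ?_)
  rw [slice_sub, smul_sub]

theorem FT_smul (K : Finset (Fin n)) (c : ℂ)
    (X : Matrix (Fin n ⊕ Fin a → Bool) (Fin n ⊕ Fin a → Bool) ℂ) :
    FT K (c • X) = c • FT K X := by
  unfold FT
  have h : ∀ x : Fin n → Bool, chi K x • slice x (c • X) = c • (chi K x • slice x X) := by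
    intro x
    rw [slice_smul, smul_comm]
  simp_rw [h]
  rw [← Finset.smul_sum, smul_comm]

theorem FT_zero (K : Finset (Fin n)) :
    FT K (0 : Matrix (Fin n ⊕ Fin a → Bool) (Fin n ⊕ Fin a → Bool) ℂ) = 0 := by
  have h := FT_smul (a := a) K 0 (0 : Matrix (Fin n ⊕ Fin a → Bool) (Fin n ⊕ Fin a → Bool) ℂ)
  simpa using h

theorem slice_tensor (x : Fin n → Bool) (B : Fin n ⊕ Fin a → Matrix Bool Bool ℂ) :
    slice x (tensorMat B) =
      (∏ i, B (Sum.inl i) (x i) (x i)) • tensorMat (fun j => B (Sum.inr j)) := by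
  ext y z
  simp [slice, tensorMat, join, Fintype.prod_sum_type]

/-- The coefficient of one input qubit in the Fourier transform of a product operator. -/
noncomputable def cf (K : Finset (Fin n)) (M : Matrix Bool Bool ℂ) (i : Fin n) : ℂ :=
  (1 / 2) * (M false false + (if i ∈ K then -1 else 1) * M true true)

theorem FT_tensor (K : Finset (Fin n)) (B : Fin n ⊕ Fin a → Matrix Bool Bool ℂ) :
    FT K (tensorMat B) =
      (∏ i, cf K (B (Sum.inl i)) i) • tensorMat (fun j => B (Sum.inr j)) := by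
  unfold FT
  simp_rw [slice_tensor, smul_smul]
  rw [← Finset.sum_smul, smul_smul]
  congr 1
  have h1 : ∀ x : Fin n → Bool, chi K x * ∏ i, B (Sum.inl i) (x i) (x i) =
      ∏ i, ((if i ∈ K then (if x i then -1 else 1) else 1) * B (Sum.inl i) (x i) (x i)) := by
    intro x
    rw [Finset.prod_mul_distrib]
    congr 1
    unfold chi
    rw [Finset.prod_ite_mem]
    simp
  simp_rw [h1]
  have h2 : ∑ x : Fin n → Bool, ∏ i, ((if i ∈ K then (if x i then (-1 : ℂ) else 1) else 1) *
      B (Sum.inl i) (x i) (x i)) =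
      ∏ i, ∑ b : Bool, ((if i ∈ K then (if b then (-1 : ℂ) else 1) else 1) *
        B (Sum.inl i) b b) := by
    rw [Finset.prod_univ_sum, Fintype.piFinset_univ]
  rw [h2]
  have h3 : ((1 : ℂ) / 2 ^ n) = ∏ _i : Fin n, ((1 : ℂ) / 2) := by
    simp
  rw [h3, ← Finset.prod_mul_distrib]
  refine Finset.prod_congr rfl (fun i _ => ?_)
  unfold cf
  by_cases hi : i ∈ K <;> simp [hi] <;> ring

/-- The isometry embedding the ancilla space at input value `x`. -/
def embed (x : Fin n → Bool) : Matrix (Fin n ⊕ Fin a → Bool) (Fin a → Bool) ℂ :=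
  fun s y => if s = join x y then 1 else 0

theorem embed_isometry (x : Fin n → Bool) : (embed (a := a) x)ᴴ * embed (a := a) x = 1 := by
  ext y z
  simp only [Matrix.mul_apply, Matrix.conjTranspose_apply, embed, Matrix.one_apply]
  by_cases h : y = z
  · subst h
    simp
  · rw [if_neg h]
    apply Finset.sum_eq_zero
    intro s _
    by_cases h1 : s = join x y
    · have h2 : s ≠ join x z := by
        rw [h1]
        exact fun hh => h (join_injective x hh)
      simp [h2]
    · simp [h1]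

theorem slice_eq_embed (x : Fin n → Bool)
    (Z : Matrix (Fin n ⊕ Fin a → Bool) (Fin n ⊕ Fin a → Bool) ℂ) :
    slice x Z = (embed (a := a) x)ᴴ * Z * embed (a := a) x := by
  ext y z
  simp only [Matrix.mul_apply, Matrix.conjTranspose_apply, embed, slice]
  simp [Finset.sum_ite_eq, Finset.sum_mul]

theorem norm_embed_le (x : Fin n → Bool) : ‖embed (a := a) x‖ ≤ 1 := by
  have h := Matrix.l2_opNorm_conjTranspose_mul_self (embed (a := a) x)
  rw [embed_isometry] at h
  have h1 : ‖(1 : Matrix (Fin a → Bool) (Fin a → Bool) ℂ)‖ = 1 := norm_one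
  rw [h1] at h
  nlinarith [norm_nonneg (embed (a := a) x)]

theorem norm_slice_le (x : Fin n → Bool)
    (Z : Matrix (Fin n ⊕ Fin a → Bool) (Fin n ⊕ Fin a → Bool) ℂ) :
    ‖slice x Z‖ ≤ ‖Z‖ := by
  rw [slice_eq_embed]
  calc ‖(embed (a := a) x)ᴴ * Z * embed (a := a) x‖
        ≤ ‖(embed (a := a) x)ᴴ * Z‖ * ‖embed (a := a) x‖ :=
        Matrix.l2_opNorm_mul _ _
    _ ≤ (‖(embed (a := a) x)ᴴ‖ * ‖Z‖) * ‖embed (a := a) x‖ := by
        gcongr
        exact Matrix.l2_opNorm_mul _ _
    _ = ‖embed (a := a) x‖ * ‖Z‖ * ‖embed (a := a) x‖ := by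
        rw [Matrix.l2_opNorm_conjTranspose]
    _ ≤ 1 * ‖Z‖ * 1 := by
        gcongr
        · exact norm_embed_le x
        · exact norm_embed_le x
    _ = ‖Z‖ := by ring

theorem norm_chi (K : Finset (Fin n)) (x : Fin n → Bool) : ‖chi K x‖ = 1 := by
  unfold chi
  rw [norm_prod]
  apply Finset.prod_eq_one
  intro i _
  by_cases h : x i <;> simp [h]

theorem norm_FT_le (K : Finset (Fin n))
    (Z : Matrix (Fin n ⊕ Fin a → Bool) (Fin n ⊕ Fin a → Bool) ℂ) :
    ‖FT K Z‖ ≤ ‖Z‖ := by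
  unfold FT
  rw [norm_smul]
  have h1 : ‖∑ x : Fin n → Bool, chi K x • slice x Z‖ ≤ 2 ^ n * ‖Z‖ := by
    calc ‖∑ x : Fin n → Bool, chi K x • slice x Z‖
        ≤ ∑ x : Fin n → Bool, ‖chi K x • slice x Z‖ := norm_sum_le _ _
      _ ≤ ∑ _x : Fin n → Bool, ‖Z‖ := by
          apply Finset.sum_le_sum
          intro x _
          rw [norm_smul, norm_chi, one_mul]
          exact norm_slice_le x Z
      _ = 2 ^ n * ‖Z‖ := by
          simp
  have h2 : ‖(1 : ℂ) / 2 ^ n‖ = 1 / 2 ^ n := by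
    simp
  rw [h2]
  calc 1 / 2 ^ n * ‖∑ x : Fin n → Bool, chi K x • slice x Z‖
      ≤ 1 / 2 ^ n * (2 ^ n * ‖Z‖) := by gcongr
    _ = ‖Z‖ := by field_simp

theorem cf_one_mem {K : Finset (Fin n)} {i : Fin n} (h : i ∈ K) :
    cf K (1 : Matrix Bool Bool ℂ) i = 0 := by
  simp [cf, h]

theorem cf_one_not_mem {K : Finset (Fin n)} {i : Fin n} (h : i ∉ K) :
    cf K (1 : Matrix Bool Bool ℂ) i = 1 := by
  simp [cf, h]
  norm_num

theorem FT_one_of_nonempty {K : Finset (Fin n)} (h : K.Nonempty) :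
    FT K (1 : Matrix (Fin n ⊕ Fin a → Bool) (Fin n ⊕ Fin a → Bool) ℂ) = 0 := by
  obtain ⟨i, hi⟩ := h
  rw [← tensorMat_one, FT_tensor]
  rw [Finset.prod_eq_zero (Finset.mem_univ i) (cf_one_mem hi), zero_smul]

/-- Multiplicativity of the Fourier transform over complementary qubit sets. -/
theorem FT_mul_tensor {T : Finset (Fin n ⊕ Fin a)} {I K : Finset (Fin n)}
    (hI : ∀ i ∈ I, Sum.inl i ∈ T) (hK : ∀ i ∈ K, Sum.inl i ∉ T)
    {B B' : Fin n ⊕ Fin a → Matrix Bool Bool ℂ} (hB : ∀ q, q ∉ T → B q = 1)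
    (hB' : ∀ q, q ∉ Tᶜ → B' q = 1) :
    FT (I ∪ K) (tensorMat B * tensorMat B') = FT I (tensorMat B) * FT K (tensorMat B') := by
  rw [tensorMat_mul, FT_tensor, FT_tensor, FT_tensor, smul_mul_smul_comm, tensorMat_mul,
    ← Finset.prod_mul_distrib]
  congr 1
  refine Finset.prod_congr rfl (fun i _ => ?_)
  by_cases hi : Sum.inl i ∈ T
  · have h1 : B' (Sum.inl i) = 1 := hB' _ (by simpa using hi)
    have h2 : i ∉ K := fun hh => hK i hh hi
    have h3 : (i ∈ I ∪ K) ↔ i ∈ I := by simp [h2]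
    rw [h1, mul_one, cf_one_not_mem h2, mul_one]
    unfold cf
    simp only [h3]
  · have h1 : B (Sum.inl i) = 1 := hB _ hi
    have h2 : i ∉ I := fun hh => hi (hI i hh)
    have h3 : (i ∈ I ∪ K) ↔ i ∈ K := by simp [h2]
    rw [h1, one_mul, cf_one_not_mem h2, one_mul]
    unfold cf
    simp only [h3]

theorem FT_mul {T : Finset (Fin n ⊕ Fin a)} {I K : Finset (Fin n)}
    (hI : ∀ i ∈ I, Sum.inl i ∈ T) (hK : ∀ i ∈ K, Sum.inl i ∉ T)
    {X Y : Matrix (Fin n ⊕ Fin a → Bool) (Fin n ⊕ Fin a → Bool) ℂ}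
    (hX : X ∈ SpanOn T) (hY : Y ∈ SpanOn Tᶜ) :
    FT (I ∪ K) (X * Y) = FT I X * FT K Y := by
  induction hX using Submodule.span_induction with
  | mem X hX =>
    obtain ⟨B, hB, rfl⟩ := hX
    induction hY using Submodule.span_induction with
    | mem Y hY =>
      obtain ⟨B', hB', rfl⟩ := hY
      exact FT_mul_tensor hI hK hB hB'
    | zero => simp [FT_zero]
    | add x y _ _ hx hy => rw [mul_add, FT_add, FT_add, mul_add, hx, hy]
    | smul c x _ hx => rw [mul_smul_comm, FT_smul, FT_smul, mul_smul_comm, hx]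
  | zero => simp [FT_zero]
  | add x y _ _ hx hy => rw [add_mul, FT_add, FT_add, add_mul, hx, hy]
  | smul c x _ hx => rw [smul_mul_assoc, FT_smul, FT_smul, smul_mul_assoc, hx]

/-- The Fourier transform vanishes if a character variable is not acted on. -/
theorem FT_eq_zero_of_not_mem {T : Finset (Fin n ⊕ Fin a)} {K : Finset (Fin n)} {i : Fin n}
    (hi : i ∈ K) (hT : Sum.inl i ∉ T)
    {X : Matrix (Fin n ⊕ Fin a → Bool) (Fin n ⊕ Fin a → Bool) ℂ} (hX : X ∈ SpanOn T) :
    FT K X = 0 := by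
  induction hX using Submodule.span_induction with
  | mem X hX =>
    obtain ⟨B, hB, rfl⟩ := hX
    rw [FT_tensor, Finset.prod_eq_zero (Finset.mem_univ i) (by rw [hB _ hT, cf_one_mem hi]),
      zero_smul]
  | zero => simp [FT_zero]
  | add x y _ _ hx hy => rw [FT_add, hx, hy, add_zero]
  | smul c x _ hx => rw [FT_smul, hx, smul_zero]

end Vale.Agent.Lib.P368
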