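import Vale.Agent.Lib.P368.Claim

/-!
Toffoli gates as reflections about product states, one-qubit layers and conjugation.
-/

set_option linter.unusedSectionVars false
set_option linter.unusedSimpArgs false
set_option linter.unusedVariables false

namespace Vale.Agent.Lib.P368

open Matrix
open scoped Matrix.Norms.L2Operator ComplexConjugate

/-- The ket `|1⟩`. -/
def ketOne : Bool → ℂ := fun b => if b then 1 else 0

/-- The ket `|-⟩`. -/
noncomputable def ketMinus : Bool → ℂ :=
  fun b => if b then -((Real.sqrt 2 : ℝ) : ℂ)⁻¹ else ((Real.sqrt 2 : ℝ) : ℂ)⁻¹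

theorem ip_ketOne : ip ketOne ketOne = 1 := by
  simp [ip, ketOne]

theorem sqrt_two_inv_sq : ((Real.sqrt 2 : ℝ) : ℂ)⁻¹ * ((Real.sqrt 2 : ℝ) : ℂ)⁻¹ = 1 / 2 := by
  rw [← mul_inv]
  have h : ((Real.sqrt 2 : ℝ) : ℂ) * ((Real.sqrt 2 : ℝ) : ℂ) = 2 := by
    rw [← Complex.ofReal_mul, Real.mul_self_sqrt (by norm_num)]
    norm_num
  rw [h]
  norm_num

theorem star_sqrt_two_inv : star (((Real.sqrt 2 : ℝ) : ℂ)⁻¹) = ((Real.sqrt 2 : ℝ) : ℂ)⁻¹ := by
  rw [star_inv₀, Complex.star_def, Complex.conj_ofReal]

theorem ip_ketMinus : ip ketMinus ketMinus = 1 := by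
  simp only [ip, ketMinus, Fintype.sum_bool, if_true, if_false, Bool.false_eq_true, star_neg,
    star_sqrt_two_inv, neg_mul, mul_neg, neg_neg, sqrt_two_inv_sq]
  norm_num

theorem ketbra_minus_apply (b c : Bool) :
    ketbra ketMinus ketMinus b c = if b = c then 1 / 2 else -1 / 2 := by
  cases b <;> cases c <;>
    simp [ketbra, ketMinus, star_sqrt_two_inv, sqrt_two_inv_sq] <;> norm_num

theorem ketbra_one_apply (b c : Bool) :
    ketbra ketOne ketOne b c = if b = true ∧ c = true then 1 else 0 := by
  cases b <;> cases c <;> simp [ketbra, ketOne]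

variable {Q : Type*} [Fintype Q] [DecidableEq Q]

/-- The kets of the reflection of a Toffoli gate. -/
noncomputable def Toffoli.kets (g : Toffoli Q) : Q → Bool → ℂ :=
  fun q => if q = g.target then ketMinus else ketOne

theorem Toffoli.kets_unit (g : Toffoli Q) : UnitOn g.support g.kets := by
  intro q _
  unfold Toffoli.kets
  by_cases h : q = g.target
  · simp [h, ip_ketMinus]
  · simp [h, ip_ketOne]

/-- The reflection of a Toffoli gate. -/
noncomputable def Toffoli.toRefl (g : Toffoli Q) : Refl Q :=
  ⟨g.support, g.kets, g.kets_unit⟩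

theorem Toffoli.mat_eq (g : Toffoli Q) : g.mat = (g.toRefl).op := by
  have hop : (g.toRefl).op = 1 - (2 : ℂ) • kb g.support g.kets g.kets := rfl
  rw [hop]
  ext s t
  simp only [Matrix.sub_apply, Matrix.smul_apply, smul_eq_mul, Toffoli.mat]
  -- the value of the product
  have hprod : kb g.support g.kets g.kets s t =
      (if s g.target = t g.target then (1 / 2 : ℂ) else -1 / 2) *
        (if ∀ q ∈ ({g.target}ᶜ : Finset Q), (if q ∈ g.controls then s q = true ∧ t q = true
            else s q = t q) then 1 else 0) := by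
    have hk : kb g.support g.kets g.kets s t = ∏ q, (if q ∈ g.support then
        ketbra (g.kets q) (g.kets q) else 1 : Matrix Bool Bool ℂ) (s q) (t q) := rfl
    rw [hk, Fintype.prod_eq_mul_prod_compl g.target]
    congr 1
    · have h1 : g.target ∈ g.support := Finset.mem_insert_self _ _
      simp only [h1, if_true, Toffoli.kets, ketbra_minus_apply]
    · have h0 : ∀ q ∈ ({g.target}ᶜ : Finset Q), (if q ∈ g.support then
          ketbra (g.kets q) (g.kets q) else 1 : Matrix Bool Bool ℂ) (s q) (t q) =
          if (if q ∈ g.controls then s q = true ∧ t q = true else s q = t q) then 1 else 0 := by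
        intro q hq
        have hq' : q ≠ g.target := by simpa using hq
        by_cases hc : q ∈ g.controls
        · have h1 : q ∈ g.support := Finset.mem_insert_of_mem hc
          simp only [h1, if_true, Toffoli.kets, hq', if_false, hc, ketbra_one_apply]
        · have h1 : q ∉ g.support := by
            simp only [Toffoli.support, Finset.mem_insert, not_or]
            exact ⟨hq', hc⟩
          simp only [h1, if_false, hc, Matrix.one_apply]
      rw [Finset.prod_congr rfl h0, Finset.prod_ite_zero]
      simp
  rw [hprod]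
  by_cases hP : ∀ q ∈ ({g.target}ᶜ : Finset Q), (if q ∈ g.controls then s q = true ∧ t q = true
      else s q = t q)
  · rw [if_pos hP, mul_one]
    have hoff : ∀ q, q ≠ g.target → s q = t q := by
      intro q hq
      have h1 := hP q (by simpa using hq)
      by_cases hc : q ∈ g.controls
      · rw [if_pos hc] at h1
        rw [h1.1, h1.2]
      · rwa [if_neg hc] at h1
    have hctl : ∀ c ∈ g.controls, t c = true := by
      intro c hc
      have hc' : c ≠ g.target := fun h => g.target_not_mem (h ▸ hc)
      have h1 := hP c (by simpa using hc')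
      rw [if_pos hc] at h1
      exact h1.2
    have hact : g.act t = Function.update t g.target (!t g.target) := by
      unfold Toffoli.act
      rw [if_pos hctl]
    by_cases hst : s g.target = t g.target
    · have hseq : s = t := by
        funext q
        by_cases hq : q = g.target
        · rw [hq, hst]
        · exact hoff q hq
      have h3 : s ≠ g.act t := by
        rw [hact, hseq]
        intro h4
        have h5 := congrFun h4 g.target
        simp at h5
      rw [if_neg h3, if_pos hst, hseq, Matrix.one_apply_eq]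
      norm_num
    · have h3 : s = g.act t := by
        rw [hact]
        funext q
        by_cases hq : q = g.target
        · rw [hq, Function.update_self]
          cases hs : s g.target <;> cases ht : t g.target <;> simp_all
        · rw [Function.update_of_ne hq]
          exact hoff q hq
      have h4 : s ≠ t := fun h => hst (by rw [h])
      rw [if_pos h3, if_neg hst, Matrix.one_apply_ne h4]
      norm_num
  · rw [if_neg hP, mul_zero, mul_zero, sub_zero, Matrix.one_apply]
    by_cases hctl : ∀ c ∈ g.controls, t c = true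
    · have hact : g.act t = Function.update t g.target (!t g.target) := by
        unfold Toffoli.act
        rw [if_pos hctl]
      have h3 : s ≠ g.act t := by
        intro h4
        apply hP
        intro q hq
        have hq' : q ≠ g.target := by simpa using hq
        have h5 : s q = t q := by
          rw [h4, hact, Function.update_of_ne hq']
        by_cases hc : q ∈ g.controls
        · rw [if_pos hc, h5]
          exact ⟨hctl q hc, hctl q hc⟩
        · rw [if_neg hc]
          exact h5
      have h4 : s ≠ t := by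
        intro h5
        apply hP
        intro q hq
        by_cases hc : q ∈ g.controls
        · rw [if_pos hc, h5]
          exact ⟨hctl q hc, hctl q hc⟩
        · rw [if_neg hc, h5]
      rw [if_neg h3, if_neg h4]
    · have hact : g.act t = t := by
        unfold Toffoli.act
        rw [if_neg hctl]
      rw [hact]

theorem layerMat_eq (L : List (Toffoli Q)) : layerMat L = layerOp (L.map Toffoli.toRefl) := by
  induction L with
  | nil => simp [layerMat, layerOp]
  | cons g L ih =>
    have h1 : layerMat (g :: L) = g.mat * layerMat L := by simp [layerMat]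
    have h2 : layerOp ((g :: L).map Toffoli.toRefl) =
        (g.toRefl).op * layerOp (L.map Toffoli.toRefl) := by simp [layerOp]
    rw [h1, h2, ih, g.mat_eq]

/-- Conjugation on one qubit. -/
theorem site_conj (V : Matrix Bool Bool ℂ) (a b : Bool → ℂ) :
    Vᴴ * ketbra a b * V = ketbra (Vᴴ *ᵥ a) (Vᴴ *ᵥ b) := by
  ext i j
  simp only [Matrix.mul_apply, Matrix.conjTranspose_apply, ketbra, Matrix.mulVec, dotProduct,
    Fintype.sum_bool, star_add, star_mul', star_star]
  ring

theorem ip_mulVec {V : Matrix Bool Bool ℂ} (hV : V * Vᴴ = 1) (a b : Bool → ℂ) :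
    ip (Vᴴ *ᵥ a) (Vᴴ *ᵥ b) = ip a b := by
  have h1 : ∀ c d : Bool → ℂ, ip c d = star c ⬝ᵥ d := fun c d => rfl
  rw [h1, h1, Matrix.star_mulVec, conjTranspose_conjTranspose, ← Matrix.dotProduct_mulVec,
    Matrix.mulVec_mulVec, hV, Matrix.one_mulVec]

/-- Conjugated kets. -/
def conjKets (V : Q → Matrix Bool Bool ℂ) (a : Q → Bool → ℂ) : Q → Bool → ℂ :=
  fun q => (V q)ᴴ *ᵥ a q

theorem conjKets_unit {V : Q → Matrix Bool Bool ℂ} (hV : ∀ q, V q * (V q)ᴴ = 1)
    {T : Finset Q} {a : Q → Bool → ℂ} (h : UnitOn T a) : UnitOn T (conjKets V a) := by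
  intro q hq
  unfold conjKets
  rw [ip_mulVec (hV q), h q hq]

theorem tensor_conj_kb {V : Q → Matrix Bool Bool ℂ} (hV : ∀ q, (V q)ᴴ * V q = 1)
    (T : Finset Q) (a b : Q → Bool → ℂ) :
    (tensorMat V)ᴴ * kb T a b * tensorMat V = kb T (conjKets V a) (conjKets V b) := by
  unfold kb
  rw [tensorMat_conjTranspose, tensorMat_mul, tensorMat_mul]
  apply tensorMat_congr
  intro q
  by_cases hq : q ∈ T
  · simp only [hq, if_true, site_conj, conjKets]
  · simp only [hq, if_false, Matrix.mul_one, hV]

theorem tensor_unitary {V : Q → Matrix Bool Bool ℂ} (hV : ∀ q, (V q)ᴴ * V q = 1) :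
    (tensorMat V)ᴴ * tensorMat V = 1 := by
  rw [tensorMat_conjTranspose, tensorMat_mul, ← tensorMat_one]
  exact tensorMat_congr hV

theorem tensor_unitary' {V : Q → Matrix Bool Bool ℂ} (hV : ∀ q, V q * (V q)ᴴ = 1) :
    tensorMat V * (tensorMat V)ᴴ = 1 := by
  rw [tensorMat_conjTranspose, tensorMat_mul, ← tensorMat_one]
  exact tensorMat_congr hV

/-- Conjugating a reflection. -/
noncomputable def Refl.conj (V : Q → Matrix Bool Bool ℂ) (hV : ∀ q, V q * (V q)ᴴ = 1)
    (g : Refl Q) : Refl Q :=
  ⟨g.T, conjKets V g.r, conjKets_unit hV g.unit⟩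

theorem Refl.conj_op {V : Q → Matrix Bool Bool ℂ} (hV : ∀ q, V q * (V q)ᴴ = 1)
    (hV' : ∀ q, (V q)ᴴ * V q = 1) (g : Refl Q) :
    (tensorMat V)ᴴ * g.op * tensorMat V = (g.conj V hV).op := by
  unfold Refl.op Refl.conj
  simp only
  rw [Matrix.mul_sub, Matrix.sub_mul, Matrix.mul_one, tensor_unitary hV', Matrix.mul_smul,
    Matrix.smul_mul, tensor_conj_kb hV']

theorem conj_layerOp {V : Q → Matrix Bool Bool ℂ} (hV : ∀ q, V q * (V q)ᴴ = 1)
    (hV' : ∀ q, (V q)ᴴ * V q = 1) (L : List (Refl Q)) :
    (tensorMat V)ᴴ * layerOp L * tensorMat V = layerOp (L.map (Refl.conj V hV)) := by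
  induction L with
  | nil =>
    simp [layerOp, tensor_unitary hV']
  | cons g L ih =>
    have h1 : layerOp (g :: L) = g.op * layerOp L := by simp [layerOp]
    have h2 : layerOp ((g :: L).map (Refl.conj V hV)) =
        (g.conj V hV).op * layerOp (L.map (Refl.conj V hV)) := by simp [layerOp]
    rw [h1, h2, ← ih, ← g.conj_op hV hV']
    have h3 := tensor_unitary' hV
    calc (tensorMat V)ᴴ * (g.op * layerOp L) * tensorMat V
        = (tensorMat V)ᴴ * g.op * 1 * layerOp L * tensorMat V := by
          simp only [Matrix.mul_one, Matrix.mul_assoc]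
      _ = (tensorMat V)ᴴ * g.op * (tensorMat V * (tensorMat V)ᴴ) * layerOp L * tensorMat V := by
          rw [h3]
      _ = _ := by simp only [Matrix.mul_assoc]

end Vale.Agent.Lib.P368
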