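import Vale.Agent.Lib.P368.Block

/-!
The key norm bound for a conjugated product projector whose character set lies inside the
projector's support.
-/

set_option linter.unusedSectionVars false
set_option linter.unusedSimpArgs false

namespace Vale.Agent.Lib.P368

open Matrix
open scoped Matrix.Norms.L2Operator ComplexConjugate

section TwoKet

variable {Q : Type*} [Fintype Q] [DecidableEq Q]

/-- The operator `|w⟩⟨w|` on `S`, identity elsewhere, with `w = α φ + β r`. -/
noncomputable def twoKet (S : Finset Q) (φ r : Q → Bool → ℂ) (α β : ℂ) :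
    Matrix (Q → Bool) (Q → Bool) ℂ :=
  (α * star α) • kb S φ φ + (β * star α) • kb S r φ + (α * star β) • kb S φ r +
    (β * star β) • kb S r r

theorem twoKet_conj (S : Finset Q) (φ r : Q → Bool → ℂ) (α β : ℂ) :
    (twoKet S φ r α β)ᴴ = twoKet S φ r α β := by
  unfold twoKet
  simp only [conjTranspose_add, conjTranspose_smul, kb_conjTranspose, star_mul', star_star]
  have e1 : star α * α = α * star α := mul_comm _ _
  have e2 : star β * β = β * star β := mul_comm _ _
  rw [e1, e2, mul_comm (star α) β, mul_comm (star β) α]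
  abel

/-- Overlap of two product kets on `S`. -/
def prodIp (S : Finset Q) (φ r : Q → Bool → ℂ) : ℂ := ∏ q ∈ S, ip (φ q) (r q)

theorem star_prodIp (S : Finset Q) (φ r : Q → Bool → ℂ) :
    star (prodIp S φ r) = prodIp S r φ := by
  unfold prodIp
  rw [Complex.star_def, map_prod]
  refine Finset.prod_congr rfl (fun q _ => ?_)
  rw [← Complex.star_def, ip_conj]

theorem prodIp_self {S : Finset Q} {φ : Q → Bool → ℂ} (h : UnitOn S φ) : prodIp S φ φ = 1 :=
  Finset.prod_eq_one h

theorem kb_mul' (T : Finset Q) (a b c d : Q → Bool → ℂ) :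
    kb T a b * kb T c d = prodIp T b c • kb T a d := kb_mul T a b c d

theorem twoKet_sq {S : Finset Q} {φ r : Q → Bool → ℂ} (hφ : UnitOn S φ) (hr : UnitOn S r)
    (α β : ℂ) :
    twoKet S φ r α β * twoKet S φ r α β =
      (α * star α + β * star β + star α * β * prodIp S φ r +
        α * star β * star (prodIp S φ r)) • twoKet S φ r α β := by
  unfold twoKet
  rw [star_prodIp]
  simp only [add_mul, mul_add, smul_mul_assoc, mul_smul_comm, kb_mul', prodIp_self hφ,
    prodIp_self hr, one_smul, smul_smul]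
  module

theorem norm_prodIp_le {S : Finset Q} {φ r : Q → Bool → ℂ} (hφ : UnitOn S φ) (hr : UnitOn S r) :
    ‖prodIp S φ r‖ ≤ 1 := by
  unfold prodIp
  rw [norm_prod]
  apply Finset.prod_le_one
  · intro i _; exact norm_nonneg _
  · intro q hq; exact norm_ip_le (hφ q hq) (hr q hq)

/-- The real number `‖α φ + β r‖ ^ 2`. -/
noncomputable def lamb (α β s : ℂ) : ℝ := ‖α‖ ^ 2 + ‖β‖ ^ 2 + 2 * (star α * β * s).re

theorem lamb_cast (α β s : ℂ) :
    ((lamb α β s : ℝ) : ℂ) = α * star α + β * star β + star α * β * s + α * star β * star s := by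
  unfold lamb
  have h1 : α * star α = ((‖α‖ ^ 2 : ℝ) : ℂ) := by
    push_cast
    rw [Complex.star_def, Complex.mul_conj']
  have h2 : β * star β = ((‖β‖ ^ 2 : ℝ) : ℂ) := by
    push_cast
    rw [Complex.star_def, Complex.mul_conj']
  have h3 : α * star β * star s = star (star α * β * s) := by
    simp only [star_mul', star_star]
  rw [h1, h2, h3]
  have h4 : star (star α * β * s) + (star α * β * s) = ((2 * (star α * β * s).re : ℝ) : ℂ) := by
    rw [add_comm, Complex.star_def, Complex.add_conj]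
  push_cast at h4 ⊢
  linear_combination (-1 : ℂ) * h4

theorem lamb_nonneg {α β s : ℂ} (hs : ‖s‖ ≤ 1) : 0 ≤ lamb α β s := by
  unfold lamb
  have h1 : |(star α * β * s).re| ≤ ‖star α * β * s‖ := Complex.abs_re_le_norm _
  have h2 : ‖star α * β * s‖ = ‖α‖ * ‖β‖ * ‖s‖ := by simp
  have h3 : ‖α‖ * ‖β‖ * ‖s‖ ≤ ‖α‖ * ‖β‖ := by
    have := mul_nonneg (norm_nonneg α) (norm_nonneg β)
    nlinarith
  have h4 := neg_abs_le (star α * β * s).re
  nlinarith [sq_nonneg (‖α‖ - ‖β‖)]

theorem norm_twoKet_le {S : Finset Q} {φ r : Q → Bool → ℂ} (hφ : UnitOn S φ) (hr : UnitOn S r)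
    (α β : ℂ) : ‖twoKet S φ r α β‖ ≤ lamb α β (prodIp S φ r) := by
  have h := Matrix.l2_opNorm_conjTranspose_mul_self (twoKet S φ r α β)
  rw [twoKet_conj, twoKet_sq hφ hr, ← lamb_cast, norm_smul, Complex.norm_real, Real.norm_eq_abs,
    abs_of_nonneg (lamb_nonneg (norm_prodIp_le hφ hr))] at h
  have h0 := lamb_nonneg (α := α) (β := β) (norm_prodIp_le hφ hr)
  by_contra hc
  have hc' := not_le.mp hc
  have := norm_nonneg (twoKet S φ r α β)
  nlinarith

end TwoKet

section Main

variable {n a : ℕ}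

/-- Product of the amplitudes of the kets at the input qubits in `S`. -/
noncomputable def amp (S : Finset (Fin n ⊕ Fin a)) (u : Fin n ⊕ Fin a → Bool → ℂ)
    (x : Fin n → Bool) : ℂ :=
  ∏ i, if Sum.inl i ∈ S then u (Sum.inl i) (x i) else 1

/-- The ancillas in `S`. -/
def ancSet (S : Finset (Fin n ⊕ Fin a)) : Finset (Fin a) :=
  Finset.univ.filter (fun j => Sum.inr j ∈ S)

/-- The family of kets on the ancillas. -/
def ancFam (u : Fin n ⊕ Fin a → Bool → ℂ) : Fin a → Bool → ℂ := fun j => u (Sum.inr j)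

theorem ancFam_unit {S : Finset (Fin n ⊕ Fin a)} {u : Fin n ⊕ Fin a → Bool → ℂ}
    (h : UnitOn S u) : UnitOn (ancSet S) (ancFam u) := by
  intro j hj
  apply h
  simpa [ancSet] using hj

theorem slice_kb (x : Fin n → Bool) (S : Finset (Fin n ⊕ Fin a))
    (u v : Fin n ⊕ Fin a → Bool → ℂ) :
    slice x (kb S u v) =
      (amp S u x * star (amp S v x)) • kb (ancSet S) (ancFam u) (ancFam v) := by
  unfold kb
  rw [slice_tensor]
  congr 1
  · unfold amp
    rw [Complex.star_def, map_prod, ← Finset.prod_mul_distrib]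
    refine Finset.prod_congr rfl (fun i _ => ?_)
    by_cases hi : Sum.inl i ∈ S
    · simp [hi, ketbra]
    · simp [hi]
  · apply tensorMat_congr
    intro j
    simp [ancSet, ancFam]

theorem sum_amp (S : Finset (Fin n ⊕ Fin a)) (u v : Fin n ⊕ Fin a → Bool → ℂ) :
    ∑ x : Fin n → Bool, star (amp S u x) * amp S v x =
      ∏ i, if Sum.inl i ∈ S then ip (u (Sum.inl i)) (v (Sum.inl i)) else 2 := by
  have h1 : ∀ x : Fin n → Bool, star (amp S u x) * amp S v x =
      ∏ i, (star (if Sum.inl i ∈ S then u (Sum.inl i) (x i) else 1) *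
        (if Sum.inl i ∈ S then v (Sum.inl i) (x i) else 1)) := by
    intro x
    unfold amp
    rw [Complex.star_def, map_prod, ← Finset.prod_mul_distrib]
  simp_rw [h1]
  have h2 := (Finset.prod_univ_sum (fun _ : Fin n => (Finset.univ : Finset Bool))
    (fun i b => star (if Sum.inl i ∈ S then u (Sum.inl i) b else 1) *
        (if Sum.inl i ∈ S then v (Sum.inl i) b else 1)))
  rw [Fintype.piFinset_univ] at h2
  rw [← h2]
  refine Finset.prod_congr rfl (fun i _ => ?_)
  by_cases hi : Sum.inl i ∈ S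
  · simp [hi, ip]
  · simp [hi]

/-- The squares of the operator `W` as a combination of kets. -/
theorem W_expand {S : Finset (Fin n ⊕ Fin a)} {φ r : Fin n ⊕ Fin a → Bool → ℂ}
    (hφ : UnitOn S φ) (hr : UnitOn S r) :
    (1 - (2 : ℂ) • kb S r r) * kb S φ φ * (1 - (2 : ℂ) • kb S r r) =
      kb S φ φ - (2 * prodIp S r φ) • kb S r φ - (2 * star (prodIp S r φ)) • kb S φ r +
        (4 * prodIp S r φ * star (prodIp S r φ)) • kb S r r := by
  rw [star_prodIp]
  simp only [sub_mul, mul_sub, one_mul, mul_one, smul_mul_assoc, mul_smul_comm, kb_mul',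
    prodIp_self hφ, prodIp_self hr, one_smul, smul_smul]
  module

theorem slice_W {S : Finset (Fin n ⊕ Fin a)} {φ r : Fin n ⊕ Fin a → Bool → ℂ}
    (hφ : UnitOn S φ) (hr : UnitOn S r) (x : Fin n → Bool) :
    slice x ((1 - (2 : ℂ) • kb S r r) * kb S φ φ * (1 - (2 : ℂ) • kb S r r)) =
      twoKet (ancSet S) (ancFam φ) (ancFam r) (amp S φ x) (-2 * prodIp S r φ * amp S r x) := by
  rw [W_expand hφ hr]
  simp only [slice_add, slice_sub, slice_smul, slice_kb]
  unfold twoKet
  have h : star (-2 * prodIp S r φ * amp S r x) = -2 * star (prodIp S r φ) * star (amp S r x) := by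
    simp [star_mul']
  rw [h]
  module

/-- The total weight. -/
theorem sum_lamb {S : Finset (Fin n ⊕ Fin a)} {φ r : Fin n ⊕ Fin a → Bool → ℂ}
    (hφ : UnitOn S φ) (hr : UnitOn S r) :
    ∑ x : Fin n → Bool, lamb (amp S φ x) (-2 * prodIp S r φ * amp S r x)
        (prodIp (ancSet S) (ancFam φ) (ancFam r)) =
      ∏ i : Fin n, if Sum.inl i ∈ S then (1 : ℝ) else 2 := by
  apply Complex.ofReal_injective
  push_cast
  simp_rw [lamb_cast]
  set c := prodIp S r φ with hc
  set s := prodIp (ancSet S) (ancFam φ) (ancFam r) with hs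
  set D : ℂ := ∏ i : Fin n, if Sum.inl i ∈ S then (1 : ℂ) else 2 with hD
  set w : ℂ := ∏ i : Fin n, if Sum.inl i ∈ S then ip (φ (Sum.inl i)) (r (Sum.inl i)) else 1
    with hw
  have hDstar : star D = D := by
    rw [hD, Complex.star_def, map_prod]
    refine Finset.prod_congr rfl (fun i _ => ?_)
    by_cases hi : Sum.inl i ∈ S
    · simp [hi]
    · simp only [hi, if_false]
      exact map_ofNat (starRingEnd ℂ) 2
  -- the overlaps
  have h1 : ∑ x : Fin n → Bool, star (amp S φ x) * amp S φ x = D := by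
    rw [sum_amp, hD]
    refine Finset.prod_congr rfl (fun i _ => ?_)
    by_cases hi : Sum.inl i ∈ S
    · simp [hi, hφ _ hi]
    · simp [hi]
  have h2 : ∑ x : Fin n → Bool, star (amp S r x) * amp S r x = D := by
    rw [sum_amp, hD]
    refine Finset.prod_congr rfl (fun i _ => ?_)
    by_cases hi : Sum.inl i ∈ S
    · simp [hi, hr _ hi]
    · simp [hi]
  have h3 : ∑ x : Fin n → Bool, star (amp S φ x) * amp S r x = w * D := by
    rw [sum_amp, hD, hw, ← Finset.prod_mul_distrib]
    refine Finset.prod_congr rfl (fun i _ => ?_)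
    by_cases hi : Sum.inl i ∈ S
    · simp [hi]
    · simp [hi]
  have h4 : ∑ x : Fin n → Bool, amp S φ x * star (amp S r x) = star w * D := by
    have h5 : ∑ x : Fin n → Bool, amp S φ x * star (amp S r x) =
        star (∑ x : Fin n → Bool, star (amp S φ x) * amp S r x) := by
      rw [Complex.star_def, map_sum]
      refine Finset.sum_congr rfl (fun x _ => ?_)
      simp only [Complex.star_def, map_mul, Complex.conj_conj]
    rw [h5, h3, star_mul', hDstar]
  have hcs : star c = w * s := by
    rw [hc, star_prodIp, hs, hw]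
    unfold prodIp ancSet ancFam
    rw [Finset.prod_filter]
    have h5 : ∏ q ∈ S, ip (φ q) (r q) = ∏ q, if q ∈ S then ip (φ q) (r q) else 1 := by
      rw [Finset.prod_ite_mem, Finset.univ_inter]
    rw [h5, Fintype.prod_sum_type]
  have hcs' : c = star w * star s := by
    have := congrArg star hcs
    rw [star_star, star_mul'] at this
    exact this
  have hterm : ∀ x : Fin n → Bool,
      amp S φ x * star (amp S φ x) + (-2 * c * amp S r x) * star (-2 * c * amp S r x) +
        star (amp S φ x) * (-2 * c * amp S r x) * s +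
        amp S φ x * star (-2 * c * amp S r x) * star s =
      star (amp S φ x) * amp S φ x + (4 * c * star c) * (star (amp S r x) * amp S r x) +
        (-2 * c * s) * (star (amp S φ x) * amp S r x) +
        (-2 * star c * star s) * (amp S φ x * star (amp S r x)) := by
    intro x
    simp only [star_mul', star_neg, star_ofNat]
    ring
  simp_rw [hterm]
  rw [Finset.sum_add_distrib, Finset.sum_add_distrib, Finset.sum_add_distrib, ← Finset.mul_sum,
    ← Finset.mul_sum, ← Finset.mul_sum, h1, h2, h3, h4]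
  have hRHS : (∏ i : Fin n, (((if Sum.inl i ∈ S then (1 : ℝ) else 2 : ℝ)) : ℂ)) = D := by
    rw [hD]
    refine Finset.prod_congr rfl (fun i _ => ?_)
    by_cases hi : Sum.inl i ∈ S <;> simp [hi]
  rw [hRHS]
  have e1 : (-2 * c * s) * (w * D) = -2 * c * (w * s) * D := by ring
  have e2 : (-2 * star c * star s) * (star w * D) = -2 * star c * (star w * star s) * D := by ring
  rw [e1, e2, ← hcs, ← hcs']
  ring

/-- The key bound. -/
theorem norm_FT_W {S : Finset (Fin n ⊕ Fin a)} {φ r : Fin n ⊕ Fin a → Bool → ℂ}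
    (hφ : UnitOn S φ) (hr : UnitOn S r) {K : Finset (Fin n)} (hK : ∀ i ∈ K, Sum.inl i ∈ S) :
    ‖FT K ((1 - (2 : ℂ) • kb S r r) * kb S φ φ * (1 - (2 : ℂ) • kb S r r))‖ ≤ (1 / 2) ^ K.card := by
  set W := (1 - (2 : ℂ) • kb S r r) * kb S φ φ * (1 - (2 : ℂ) • kb S r r) with hW
  have h1 : ‖∑ x : Fin n → Bool, chi K x • slice x W‖ ≤
      ∏ i : Fin n, if Sum.inl i ∈ S then (1 : ℝ) else 2 := by
    calc ‖∑ x : Fin n → Bool, chi K x • slice x W‖
        ≤ ∑ x : Fin n → Bool, ‖chi K x • slice x W‖ := norm_sum_le _ _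
      _ ≤ ∑ x : Fin n → Bool, lamb (amp S φ x) (-2 * prodIp S r φ * amp S r x)
            (prodIp (ancSet S) (ancFam φ) (ancFam r)) := by
          apply Finset.sum_le_sum
          intro x _
          rw [norm_smul, norm_chi, one_mul, hW, slice_W hφ hr]
          exact norm_twoKet_le (ancFam_unit hφ) (ancFam_unit hr) _ _
      _ = _ := sum_lamb hφ hr
  unfold FT
  rw [norm_smul]
  have h2 : ‖(1 : ℂ) / 2 ^ n‖ = 1 / 2 ^ n := by simp
  rw [h2]
  set F : Finset (Fin n) := Finset.univ.filter (fun i => Sum.inl i ∈ S) with hF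
  have h3 : (1 / 2 ^ n : ℝ) * ∏ i : Fin n, (if Sum.inl i ∈ S then (1 : ℝ) else 2) =
      (1 / 2) ^ F.card := by
    rw [← prod_half_ite F]
    have h4 : (1 / 2 ^ n : ℝ) = ∏ _i : Fin n, (1 / 2 : ℝ) := by simp
    rw [h4, ← Finset.prod_mul_distrib]
    refine Finset.prod_congr rfl (fun i _ => ?_)
    by_cases hi : Sum.inl i ∈ S
    · simp [hi, hF]
    · simp [hi, hF]
  have hsub : K ⊆ F := by
    intro i hi
    simpa [hF] using hK i hi
  calc 1 / 2 ^ n * ‖∑ x : Fin n → Bool, chi K x • slice x W‖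
      ≤ 1 / 2 ^ n * ∏ i : Fin n, (if Sum.inl i ∈ S then (1 : ℝ) else 2) := by gcongr
    _ = (1 / 2) ^ F.card := h3
    _ ≤ (1 / 2) ^ K.card := by
        apply pow_le_pow_of_le_one (by norm_num) (by norm_num)
        exact Finset.card_le_card hsub

end Main

end Vale.Agent.Lib.P368
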