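import Vale.Agent.Lib.P368.Top

/-!
The parity correlation as a Fourier coefficient, and the bound at entangling depth two.
-/

set_option linter.unusedSectionVars false
set_option linter.unusedSimpArgs false
set_option linter.unusedVariables false

namespace Vale.Agent.Lib.P368

open Matrix
open scoped Matrix.Norms.L2Operator ComplexConjugate

section Forms

theorem star_mulVec_form {P R : Type*} [Fintype P] [Fintype R] [DecidableEq P] [DecidableEq R]
    (U : Matrix P R ℂ) (D : Matrix P P ℂ) (v : R → ℂ) :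
    star (U *ᵥ v) ⬝ᵥ (D *ᵥ (U *ᵥ v)) = star v ⬝ᵥ ((Uᴴ * D * U) *ᵥ v) := by
  rw [Matrix.star_mulVec, ← Matrix.dotProduct_mulVec, Matrix.mulVec_mulVec, Matrix.mulVec_mulVec,
    Matrix.mul_assoc]

theorem norm_form_le {P : Type*} [Fintype P] [DecidableEq P] (A : Matrix P P ℂ) (v : P → ℂ) :
    ‖star v ⬝ᵥ (A *ᵥ v)‖ ≤ ‖A‖ * ∑ y, ‖v y‖ ^ 2 := by
  have h1 := Matrix.l2_opNorm_mulVec A (WithLp.toLp 2 v)
  have h2 : star v ⬝ᵥ (A *ᵥ v) = inner ℂ (WithLp.toLp 2 v) (WithLp.toLp 2 (A *ᵥ v)) := by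
    rw [EuclideanSpace.inner_toLp_toLp, dotProduct_comm]
  have h3 : ‖WithLp.toLp 2 v‖ ^ 2 = ∑ y, ‖v y‖ ^ 2 := by
    rw [EuclideanSpace.norm_sq_eq]
  rw [h2, ← h3]
  have h4 : ‖(WithLp.toLp 2 (A *ᵥ v) : EuclideanSpace ℂ P)‖ ≤ ‖A‖ * ‖WithLp.toLp 2 v‖ := h1
  calc ‖inner ℂ (WithLp.toLp 2 v) (WithLp.toLp 2 (A *ᵥ v))‖
      ≤ ‖WithLp.toLp 2 v‖ * ‖(WithLp.toLp 2 (A *ᵥ v) : EuclideanSpace ℂ P)‖ :=
        norm_inner_le_norm _ _
    _ ≤ ‖WithLp.toLp 2 v‖ * (‖A‖ * ‖WithLp.toLp 2 v‖) := by gcongr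
    _ = ‖A‖ * ‖WithLp.toLp 2 v‖ ^ 2 := by ring

theorem norm_le_one_of_isometry {P : Type*} [Fintype P] [DecidableEq P] [Nonempty P]
    (U : Matrix P P ℂ) (h : Uᴴ * U = 1) : ‖U‖ ≤ 1 := by
  have h1 := Matrix.l2_opNorm_conjTranspose_mul_self U
  rw [h] at h1
  have h2 : ‖(1 : Matrix P P ℂ)‖ = 1 := norm_one
  rw [h2] at h1
  nlinarith [norm_nonneg U]

end Forms

section Reduction

variable {n a : ℕ}

theorem initState_eq (x : Fin n → Bool) (res : (Fin a → Bool) → ℂ) :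
    initState x res = embed x *ᵥ res := by
  funext s
  unfold initState
  simp only [Matrix.mulVec, dotProduct, embed]
  by_cases h : (fun i => s (Sum.inl i)) = x
  · rw [if_pos h]
    have hs : s = join x (fun j => s (Sum.inr j)) := by
      funext q
      cases q with
      | inl i => exact congrFun h i
      | inr j => rfl
    rw [Finset.sum_eq_single (fun j => s (Sum.inr j))]
    · rw [if_pos hs, one_mul]
    · intro y _ hy
      rw [if_neg, zero_mul]
      intro h2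
      apply hy
      funext j
      rw [h2]
      rfl
    · simp
  · rw [if_neg h]
    symm
    apply Finset.sum_eq_zero
    intro y _
    rw [if_neg, zero_mul]
    intro h2
    apply h
    rw [h2]
    funext i
    rfl

/-- The one-qubit observable `Z` on the measured qubit. -/
noncomputable def zObs {Q : Type*} [Fintype Q] [DecidableEq Q] (m : Q) :
    Matrix (Q → Bool) (Q → Bool) ℂ :=
  Matrix.diagonal (fun s => if s m = false then 1 else -1)

theorem zObs_form {Q : Type*} [Fintype Q] [DecidableEq Q] (m : Q) (w : (Q → Bool) → ℂ) :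
    ((∑ s, (if s m = false then (1 : ℝ) else -1) * ‖w s‖ ^ 2 : ℝ) : ℂ) =
      star w ⬝ᵥ (zObs m *ᵥ w) := by
  simp only [dotProduct, Matrix.mulVec_diagonal, zObs, Pi.star_apply]
  push_cast
  refine Finset.sum_congr rfl (fun s _ => ?_)
  have h : star (w s) * w s = (‖w s‖ : ℂ) ^ 2 := Complex.conj_mul' (w s)
  rw [← h]
  cases hs : s m
  · simp
  · simp

theorem chi_univ (x : Fin n → Bool) :
    chi Finset.univ x = if par x = true then (-1 : ℂ) else 1 := by
  unfold chi par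
  rw [Finset.prod_ite, Finset.prod_const, Finset.prod_const_one, mul_one]
  by_cases h : Odd (Finset.univ.filter (fun i => x i = true)).card
  · simp [h, h.neg_one_pow]
  · have h' := Nat.not_odd_iff_even.mp h
    simp [h, h'.neg_one_pow]

/-- The correlation is a quadratic form of the Fourier coefficient. -/
theorem corr_eq (U : Matrix (Fin n ⊕ Fin a → Bool) (Fin n ⊕ Fin a → Bool) ℂ)
    (m : Fin n ⊕ Fin a) (res : (Fin a → Bool) → ℂ) :
    (((1 / 2 ^ n : ℝ) * ∑ x : Fin n → Bool, ∑ s : Fin n ⊕ Fin a → Bool,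
      (if s m = par x then (1 : ℝ) else -1) * ‖(U *ᵥ initState x res) s‖ ^ 2 : ℝ) : ℂ) =
      star res ⬝ᵥ (FT Finset.univ (Uᴴ * zObs m * U) *ᵥ res) := by
  unfold FT
  rw [Matrix.smul_mulVec, Matrix.sum_mulVec, dotProduct_smul, dotProduct_sum]
  rw [Complex.ofReal_mul, Complex.ofReal_sum, smul_eq_mul]
  congr 1
  · push_cast
    rfl
  refine Finset.sum_congr rfl (fun x _ => ?_)
  have h1 : star res ⬝ᵥ (slice x (Uᴴ * zObs m * U) *ᵥ res) =
      star (U *ᵥ initState x res) ⬝ᵥ (zObs m *ᵥ (U *ᵥ initState x res)) := by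
    rw [star_mulVec_form U, initState_eq, star_mulVec_form (embed x), slice_eq_embed]
  rw [Matrix.smul_mulVec, dotProduct_smul, smul_eq_mul, h1, ← zObs_form, chi_univ]
  cases hp : par x
  · simp only [Bool.false_eq_true, if_false, one_mul]
  · simp only [if_true]
    rw [← Complex.ofReal_one, ← Complex.ofReal_neg, ← Complex.ofReal_mul, Finset.mul_sum]
    congr 1
    refine Finset.sum_congr rfl (fun s _ => ?_)
    cases hs : s m
    · simp
    · simp

/-- The correlation only depends on the Fourier coefficient. -/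
theorem abs_corr_le (U : Matrix (Fin n ⊕ Fin a → Bool) (Fin n ⊕ Fin a → Bool) ℂ)
    (m : Fin n ⊕ Fin a) (res : (Fin a → Bool) → ℂ) (hres : ∑ y, ‖res y‖ ^ 2 = 1) :
    |(1 / 2 ^ n : ℝ) * ∑ x : Fin n → Bool, ∑ s : Fin n ⊕ Fin a → Bool,
      (if s m = par x then (1 : ℝ) else -1) * ‖(U *ᵥ initState x res) s‖ ^ 2| ≤
      ‖FT Finset.univ (Uᴴ * zObs m * U)‖ := by
  rw [← Real.norm_eq_abs, ← Complex.norm_real, corr_eq]
  calc _ ≤ ‖FT Finset.univ (Uᴴ * zObs m * U)‖ * ∑ y, ‖res y‖ ^ 2 := norm_form_le _ _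
    _ = _ := by rw [hres, mul_one]

end Reduction

section Observables

variable {Q : Type*} [Fintype Q] [DecidableEq Q]

theorem zObs_eq (m : Q) :
    zObs m = 1 - (2 : ℂ) • kb {m} (fun _ => ketOne) (fun _ => ketOne) := by
  ext s t
  simp only [Matrix.sub_apply, Matrix.smul_apply, smul_eq_mul, zObs]
  have hk : kb {m} (fun _ : Q => ketOne) (fun _ => ketOne) s t =
      (if s m = true ∧ t m = true then (1 : ℂ) else 0) *
        ∏ q ∈ ({m}ᶜ : Finset Q), (1 : Matrix Bool Bool ℂ) (s q) (t q) := by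
    have hk : kb {m} (fun _ : Q => ketOne) (fun _ => ketOne) s t =
        ∏ q, (if q ∈ ({m} : Finset Q) then ketbra ketOne ketOne else 1 :
        Matrix Bool Bool ℂ) (s q) (t q) := rfl
    rw [hk, Fintype.prod_eq_mul_prod_compl m]
    congr 1
    · simp [ketbra_one_apply]
    · refine Finset.prod_congr rfl (fun q hq => ?_)
      have hq' : q ≠ m := by simpa using hq
      simp [hq']
  rw [hk]
  by_cases h : s = t
  · subst h
    have h1 : ∏ q ∈ ({m}ᶜ : Finset Q), (1 : Matrix Bool Bool ℂ) (s q) (s q) = 1 := by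
      simp
    rw [h1, Matrix.diagonal_apply_eq, Matrix.one_apply_eq]
    cases hs : s m
    · simp
    · simp
      norm_num
  · rw [Matrix.diagonal_apply_ne _ h, Matrix.one_apply_ne h]
    obtain ⟨q, hq⟩ := Function.ne_iff.mp h
    by_cases hqm : q = m
    · subst hqm
      have : ¬ (s q = true ∧ t q = true) := by
        rintro ⟨h1, h2⟩
        exact hq (by rw [h1, h2])
      simp [this]
    · rw [Finset.prod_eq_zero (i := q) (by simpa using hqm) (by simp [hq])]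
      simp

theorem zObs_unitary (m : Q) : (zObs m)ᴴ * zObs m = 1 := by
  unfold zObs
  rw [Matrix.diagonal_conjTranspose, Matrix.diagonal_mul_diagonal, ← Matrix.diagonal_one]
  congr 1
  funext s
  cases hs : s m <;> simp [hs]

end Observables

section Chain

variable {n a : ℕ}

/-- Two reflection layers with three layers of one-qubit unitaries. -/
noncomputable def twoLayer {Q : Type*} [Fintype Q] [DecidableEq Q] (W3 W2 W1 : Q → Matrix Bool Bool ℂ)
    (G2 G1 : List (Toffoli Q)) : Matrix (Q → Bool) (Q → Bool) ℂ :=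
  tensorMat W3 * ((layerMat G2 * tensorMat W2) * (layerMat G1 * tensorMat W1))

theorem isom_mul {P : Type*} [Fintype P] [DecidableEq P] {A B : Matrix P P ℂ}
    (hA : Aᴴ * A = 1) (hB : Bᴴ * B = 1) : (A * B)ᴴ * (A * B) = 1 := by
  rw [conjTranspose_mul]
  calc Bᴴ * Aᴴ * (A * B) = Bᴴ * (Aᴴ * A) * B := by simp only [Matrix.mul_assoc]
    _ = 1 := by rw [hA, Matrix.mul_one, hB]

theorem twoLayer_isom {Q : Type*} [Fintype Q] [DecidableEq Q] {W3 W2 W1 : Q → Matrix Bool Bool ℂ}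
    (h3 : ∀ q, (W3 q)ᴴ * W3 q = 1) (h2 : ∀ q, (W2 q)ᴴ * W2 q = 1) (h1 : ∀ q, (W1 q)ᴴ * W1 q = 1)
    (G2 G1 : List (Toffoli Q)) :
    (twoLayer W3 W2 W1 G2 G1)ᴴ * twoLayer W3 W2 W1 G2 G1 = 1 := by
  unfold twoLayer
  rw [layerMat_eq, layerMat_eq]
  exact isom_mul (tensor_unitary h3) (isom_mul
    (isom_mul (layerOp_unitary _) (tensor_unitary h2))
    (isom_mul (layerOp_unitary _) (tensor_unitary h1)))

theorem chain_bound (hn : 5 ≤ n) {W3 W2 W1 : Fin n ⊕ Fin a → Matrix Bool Bool ℂ}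
    (h3 : ∀ q, (W3 q)ᴴ * W3 q = 1) (h3' : ∀ q, W3 q * (W3 q)ᴴ = 1)
    (h2 : ∀ q, (W2 q)ᴴ * W2 q = 1) (h2' : ∀ q, W2 q * (W2 q)ᴴ = 1)
    (h1 : ∀ q, (W1 q)ᴴ * W1 q = 1) (h1' : ∀ q, W1 q * (W1 q)ᴴ = 1)
    {G2 G1 : List (Toffoli (Fin n ⊕ Fin a))}
    (hG2 : G2.Pairwise (fun g h => Disjoint g.support h.support))
    (hG1 : G1.Pairwise (fun g h => Disjoint g.support h.support))
    (m : Fin n ⊕ Fin a) {μ : Fin n ⊕ Fin a → Bool → ℂ} (hμ : UnitOn {m} μ) :
    ‖FT Finset.univ ((twoLayer W3 W2 W1 G2 G1)ᴴ * kb {m} μ μ * twoLayer W3 W2 W1 G2 G1)‖ ≤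
      2 * (1 / 2) ^ ((n + 1) / 2) := by
  set L2R := G2.map Toffoli.toRefl with hL2R
  set L1R := G1.map Toffoli.toRefl with hL1R
  have hp2 : L2R.Pairwise (fun g h => Disjoint g.T h.T) := by
    rw [hL2R, List.pairwise_map]
    exact hG2
  have hp1 : L1R.Pairwise (fun g h => Disjoint g.T h.T) := by
    rw [hL1R, List.pairwise_map]
    exact hG1
  set L' := L1R.map (Refl.conj W1 h1') with hL'
  have hp' : L'.Pairwise (fun g h => Disjoint g.T h.T) := by
    rw [hL', List.pairwise_map]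
    exact hp1
  have hcomm : layerOp L1R * tensorMat W1 = tensorMat W1 * layerOp L' := by
    rw [hL', ← conj_layerOp h1' h1 L1R]
    calc layerOp L1R * tensorMat W1 = 1 * layerOp L1R * tensorMat W1 := by rw [Matrix.one_mul]
      _ = (tensorMat W1 * (tensorMat W1)ᴴ) * layerOp L1R * tensorMat W1 := by
          rw [tensor_unitary' h1']
      _ = _ := by simp only [Matrix.mul_assoc]
  set W : Fin n ⊕ Fin a → Matrix Bool Bool ℂ := fun q => W2 q * W1 q with hW
  have hW1 : ∀ q, (W q)ᴴ * W q = 1 := fun q => isom_mul (h2 q) (h1 q)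
  have hW2 : ∀ q, W q * (W q)ᴴ = 1 := by
    intro q
    simp only [hW, conjTranspose_mul]
    calc W2 q * W1 q * ((W1 q)ᴴ * (W2 q)ᴴ) = W2 q * (W1 q * (W1 q)ᴴ) * (W2 q)ᴴ := by
          simp only [Matrix.mul_assoc]
      _ = 1 := by rw [h1', Matrix.mul_one, h2']
  have hU : twoLayer W3 W2 W1 G2 G1 = tensorMat W3 * layerOp L2R * tensorMat W * layerOp L' := by
    unfold twoLayer
    rw [layerMat_eq, layerMat_eq, ← hL2R, ← hL1R, hcomm, hW, ← tensorMat_mul]
    simp only [Matrix.mul_assoc]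
  have hZ : ∀ X : Matrix (Fin n ⊕ Fin a → Bool) (Fin n ⊕ Fin a → Bool) ℂ,
      (tensorMat W3 * layerOp L2R * tensorMat W * layerOp L')ᴴ * X *
        (tensorMat W3 * layerOp L2R * tensorMat W * layerOp L') =
      (layerOp L')ᴴ * ((tensorMat W)ᴴ * ((layerOp L2R)ᴴ * ((tensorMat W3)ᴴ * X * tensorMat W3) *
        layerOp L2R) * tensorMat W) * layerOp L' := by
    intro X
    simp only [conjTranspose_mul, Matrix.mul_assoc]
  rw [hU, hZ, tensor_conj_kb h3]
  set ν := conjKets W3 μ with hν'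
  have hν : UnitOn {m} ν := conjKets_unit h3' hμ
  rcases layer_single_site L2R hp2 m ν with h | ⟨g, hg, hmg, h⟩
  · rw [h, tensor_conj_kb hW1]
    have h4 := one_term_bound L' hp' (conjKets_unit hW2 hν)
    have hpos : (0 : ℝ) ≤ (1 / 2) ^ ((n + 1) / 2) := by positivity
    linarith
  · rw [h]
    obtain ⟨φ1, φ2, hφ1, hφ2, htop⟩ := top_gate g hmg hν
    rw [htop]
    have hconj : (tensorMat W)ᴴ * (kb {m} ν ν - kb g.T φ1 φ1 + kb g.T φ2 φ2) * tensorMat W =
        kb {m} (conjKets W ν) (conjKets W ν) - kb g.T (conjKets W φ1) (conjKets W φ1) +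
          kb g.T (conjKets W φ2) (conjKets W φ2) := by
      rw [← tensor_conj_kb hW1, ← tensor_conj_kb hW1, ← tensor_conj_kb hW1]
      simp only [mul_add, mul_sub, add_mul, sub_mul]
    rw [hconj]
    exact three_term_bound L' hp' hn (conjKets_unit hW2 hν) (conjKets_unit hW2 hφ1)
      (conjKets_unit hW2 hφ2)

theorem FT_zObs (hn : 0 < n) {U : Matrix (Fin n ⊕ Fin a → Bool) (Fin n ⊕ Fin a → Bool) ℂ}
    (hU : Uᴴ * U = 1) (m : Fin n ⊕ Fin a) :
    FT Finset.univ (Uᴴ * zObs m * U) =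
      -(2 : ℂ) • FT Finset.univ (Uᴴ * kb {m} (fun _ => ketOne) (fun _ => ketOne) * U) := by
  have h1 : Uᴴ * zObs m * U =
      1 - (2 : ℂ) • (Uᴴ * kb {m} (fun _ => ketOne) (fun _ => ketOne) * U) := by
    rw [zObs_eq, Matrix.mul_sub, Matrix.sub_mul, Matrix.mul_one, hU, Matrix.mul_smul,
      Matrix.smul_mul]
  have hne : (Finset.univ : Finset (Fin n)).Nonempty := ⟨⟨0, hn⟩, Finset.mem_univ _⟩
  rw [h1, FT_sub, FT_one_of_nonempty hne, FT_smul, zero_sub, neg_smul]

/-- The main estimate for two layers. -/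
theorem twoLayer_corr {W3 W2 W1 : Fin n ⊕ Fin a → Matrix Bool Bool ℂ}
    (h3 : ∀ q, (W3 q)ᴴ * W3 q = 1) (h3' : ∀ q, W3 q * (W3 q)ᴴ = 1)
    (h2 : ∀ q, (W2 q)ᴴ * W2 q = 1) (h2' : ∀ q, W2 q * (W2 q)ᴴ = 1)
    (h1 : ∀ q, (W1 q)ᴴ * W1 q = 1) (h1' : ∀ q, W1 q * (W1 q)ᴴ = 1)
    {G2 G1 : List (Toffoli (Fin n ⊕ Fin a))}
    (hG2 : G2.Pairwise (fun g h => Disjoint g.support h.support))
    (hG1 : G1.Pairwise (fun g h => Disjoint g.support h.support))
    (m : Fin n ⊕ Fin a) (res : (Fin a → Bool) → ℂ) (hres : ∑ y, ‖res y‖ ^ 2 = 1) :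
    |(1 / 2 ^ n : ℝ) * ∑ x : Fin n → Bool, ∑ s : Fin n ⊕ Fin a → Bool,
      (if s m = par x then (1 : ℝ) else -1) *
        ‖(twoLayer W3 W2 W1 G2 G1 *ᵥ initState x res) s‖ ^ 2| ≤
      min 1 (4 / 2 ^ ((n + 1) / 2)) := by
  set U := twoLayer W3 W2 W1 G2 G1 with hU
  have hUi : Uᴴ * U = 1 := twoLayer_isom h3 h2 h1 G2 G1
  have hmain := abs_corr_le U m res hres
  have hUn : ‖U‖ ≤ 1 := norm_le_one_of_isometry U hUi
  have hZn : ‖zObs m‖ ≤ 1 := norm_le_one_of_isometry _ (zObs_unitary m)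
  have hone : ‖FT Finset.univ (Uᴴ * zObs m * U)‖ ≤ 1 := by
    refine (norm_FT_le _ _).trans ?_
    calc ‖Uᴴ * zObs m * U‖ ≤ ‖Uᴴ * zObs m‖ * ‖U‖ := Matrix.l2_opNorm_mul _ _
      _ ≤ (‖Uᴴ‖ * ‖zObs m‖) * ‖U‖ := by
          gcongr
          exact Matrix.l2_opNorm_mul _ _
      _ = ‖U‖ * ‖zObs m‖ * ‖U‖ := by rw [Matrix.l2_opNorm_conjTranspose]
      _ ≤ 1 * 1 * 1 := by gcongr
      _ = 1 := by norm_num
  refine le_min (hmain.trans hone) ?_
  by_cases hn : 5 ≤ n
  · refine hmain.trans ?_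
    rw [FT_zObs (by omega) hUi m, norm_smul]
    have h6 := chain_bound hn h3 h3' h2 h2' h1 h1' hG2 hG1 m
      (μ := fun _ => ketOne) (fun _ _ => ip_ketOne)
    rw [← hU] at h6
    have h7 : ‖(-(2 : ℂ))‖ = 2 := by simp
    rw [h7]
    have h8 : (4 : ℝ) / 2 ^ ((n + 1) / 2) = 2 * (2 * (1 / 2) ^ ((n + 1) / 2)) := by
      rw [one_div, inv_pow]
      ring
    rw [h8]
    gcongr
  · refine (hmain.trans hone).trans ?_
    have h9 : (n + 1) / 2 ≤ 2 := by omega
    have h10 : (2 : ℝ) ^ ((n + 1) / 2) ≤ 2 ^ 2 := pow_le_pow_right₀ (by norm_num) h9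
    rw [le_div_iff₀ (by positivity)]
    linarith

/-- Identity layers for padding. -/
theorem tensorMat_ones {Q : Type*} [Fintype Q] [DecidableEq Q] :
    tensorMat (fun _ : Q => (1 : Matrix Bool Bool ℂ)) = 1 := tensorMat_one

theorem layerMat_nil {Q : Type*} [Fintype Q] [DecidableEq Q] :
    layerMat ([] : List (Toffoli Q)) = 1 := by
  simp [layerMat]

theorem unitary_val_left {q : Matrix.unitaryGroup Bool ℂ} :
    ((q : Matrix Bool Bool ℂ))ᴴ * (q : Matrix Bool Bool ℂ) = 1 := by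
  have h := (Matrix.mem_unitaryGroup_iff'.mp q.2)
  rwa [Matrix.star_eq_conjTranspose] at h

theorem unitary_val_right {q : Matrix.unitaryGroup Bool ℂ} :
    (q : Matrix Bool Bool ℂ) * ((q : Matrix Bool Bool ℂ))ᴴ = 1 := by
  have h := (Matrix.mem_unitaryGroup_iff.mp q.2)
  rwa [Matrix.star_eq_conjTranspose] at h

/-- The depth-two theorem for circuits. -/
theorem depth_two_bound (c : Circuit (Fin n ⊕ Fin a)) (hc : c.layers.length ≤ 2)
    (m : Fin n ⊕ Fin a) (res : (Fin a → Bool) → ℂ) (hres : ∑ y, ‖res y‖ ^ 2 = 1) :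
    |parityCorrelation c m res| ≤ min 1 (4 / 2 ^ ((n + 1) / 2)) := by
  have hone : ∀ q : Fin n ⊕ Fin a, ((1 : Matrix Bool Bool ℂ))ᴴ * (1 : Matrix Bool Bool ℂ) = 1 := by
    intro q
    simp
  have hone' : ∀ q : Fin n ⊕ Fin a, (1 : Matrix Bool Bool ℂ) * ((1 : Matrix Bool Bool ℂ))ᴴ = 1 := by
    intro q
    simp
  have hF : ∀ q, ((c.final q : Matrix Bool Bool ℂ))ᴴ * (c.final q : Matrix Bool Bool ℂ) = 1 :=
    fun q => unitary_val_left
  have hF' : ∀ q, (c.final q : Matrix Bool Bool ℂ) * ((c.final q : Matrix Bool Bool ℂ))ᴴ = 1 :=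
    fun q => unitary_val_right
  unfold parityCorrelation
  obtain ⟨ls, hls⟩ : ∃ ls, c.layers = ls := ⟨_, rfl⟩
  have hd := c.disjoint
  rw [hls] at hd hc
  match ls, hls, hd, hc with
  | [], hls, hd, hc =>
    have hmat : c.mat = twoLayer (fun q => (c.final q : Matrix Bool Bool ℂ))
        (fun _ => 1) (fun _ => 1) [] [] := by
      unfold Circuit.mat twoLayer
      rw [hls, layerMat_nil, tensorMat_ones]
      simp [layersMat]
    rw [hmat]
    exact twoLayer_corr hF hF' hone hone' hone hone' List.Pairwise.nil List.Pairwise.nil m res hres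
  | [l1], hls, hd, hc =>
    have hmat : c.mat = twoLayer (fun q => (c.final q : Matrix Bool Bool ℂ))
        (fun q => (l1.1 q : Matrix Bool Bool ℂ)) (fun _ => 1) l1.2 [] := by
      unfold Circuit.mat twoLayer
      rw [hls, layerMat_nil, tensorMat_ones]
      simp [layersMat]
    rw [hmat]
    exact twoLayer_corr hF hF' (fun q => unitary_val_left) (fun q => unitary_val_right)
      hone hone' (hd l1 (by simp)) List.Pairwise.nil m res hres
  | [l1, l2], hls, hd, hc =>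
    have hmat : c.mat = twoLayer (fun q => (c.final q : Matrix Bool Bool ℂ))
        (fun q => (l2.1 q : Matrix Bool Bool ℂ)) (fun q => (l1.1 q : Matrix Bool Bool ℂ))
        l2.2 l1.2 := by
      unfold Circuit.mat twoLayer
      rw [hls]
      simp [layersMat]
    rw [hmat]
    exact twoLayer_corr hF hF' (fun q => unitary_val_left) (fun q => unitary_val_right)
      (fun q => unitary_val_left) (fun q => unitary_val_right)
      (hd l2 (by simp)) (hd l1 (by simp)) m res hres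
  | _ :: _ :: _ :: _, hls, hd, hc =>
    simp at hc

end Chain

end Vale.Agent.Lib.P368
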