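import Vale.Agent.Lib.P368.Defs

/-!
Algebra of product operators and rank one site operators.
-/

set_option linter.unusedSectionVars false
set_option linter.unusedSimpArgs false

namespace Vale.Agent.Lib.P368

open Matrix

section Site

/-- Inner product on one qubit. -/
def ip (a b : Bool → ℂ) : ℂ := ∑ i, star (a i) * b i

/-- Rank one operator `|a⟩⟨b|` on one qubit. -/
def ketbra (a b : Bool → ℂ) : Matrix Bool Bool ℂ := fun i j => a i * star (b j)

theorem ketbra_mul (a b c d : Bool → ℂ) :
    ketbra a b * ketbra c d = ip b c • ketbra a d := by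
  ext i j
  simp only [Matrix.mul_apply, ketbra, ip, Matrix.smul_apply, smul_eq_mul, Fintype.sum_bool]
  ring

theorem ketbra_conjTranspose (a b : Bool → ℂ) : (ketbra a b)ᴴ = ketbra b a := by
  ext i j
  simp [ketbra, Matrix.conjTranspose_apply, mul_comm]

theorem ip_conj (a b : Bool → ℂ) : star (ip a b) = ip b a := by
  simp [ip, mul_comm]

end Site

variable {Q : Type*} [Fintype Q] [DecidableEq Q]

theorem tensorMat_mul (A B : Q → Matrix Bool Bool ℂ) :
    tensorMat A * tensorMat B = tensorMat (fun q => A q * B q) := by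
  ext s t
  simp only [Matrix.mul_apply, tensorMat, ← Finset.prod_mul_distrib]
  rw [Finset.prod_univ_sum, Fintype.piFinset_univ]

theorem tensorMat_one : tensorMat (fun _ : Q => (1 : Matrix Bool Bool ℂ)) = 1 := by
  ext s t
  simp only [tensorMat, Matrix.one_apply]
  by_cases h : s = t
  · subst h; simp
  · rw [if_neg h]
    obtain ⟨q, hq⟩ := Function.ne_iff.mp h
    exact Finset.prod_eq_zero (Finset.mem_univ q) (by simp [hq])

theorem tensorMat_conjTranspose (A : Q → Matrix Bool Bool ℂ) :
    (tensorMat A)ᴴ = tensorMat (fun q => (A q)ᴴ) := by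
  ext s t
  simp [tensorMat, Matrix.conjTranspose_apply]

theorem tensorMat_smul (c : Q → ℂ) (A : Q → Matrix Bool Bool ℂ) :
    tensorMat (fun q => c q • A q) = (∏ q, c q) • tensorMat A := by
  ext s t
  simp [tensorMat, Finset.prod_mul_distrib]

theorem tensorMat_congr {A B : Q → Matrix Bool Bool ℂ} (h : ∀ q, A q = B q) :
    tensorMat A = tensorMat B := by
  rw [funext h]

/-- Product of `|a q⟩⟨b q|` over the qubits in `T`, identity on the other qubits. -/
noncomputable def kb (T : Finset Q) (a b : Q → Bool → ℂ) : Matrix (Q → Bool) (Q → Bool) ℂ :=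
  tensorMat (fun q => if q ∈ T then ketbra (a q) (b q) else 1)

theorem kb_mul (T : Finset Q) (a b c d : Q → Bool → ℂ) :
    kb T a b * kb T c d = (∏ q ∈ T, ip (b q) (c q)) • kb T a d := by
  unfold kb
  rw [tensorMat_mul]
  have h : ∀ q, (if q ∈ T then ketbra (a q) (b q) else 1) *
      (if q ∈ T then ketbra (c q) (d q) else 1) =
      (if q ∈ T then ip (b q) (c q) else 1) • (if q ∈ T then ketbra (a q) (d q) else 1) := by
    intro q
    by_cases hq : q ∈ T
    · simp [hq, ketbra_mul]
    · simp [hq]
  rw [tensorMat_congr h, tensorMat_smul]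
  congr 1
  rw [Finset.prod_ite_mem]
  simp

theorem kb_conjTranspose (T : Finset Q) (a b : Q → Bool → ℂ) :
    (kb T a b)ᴴ = kb T b a := by
  unfold kb
  rw [tensorMat_conjTranspose]
  apply tensorMat_congr
  intro q
  by_cases hq : q ∈ T <;> simp [hq, ketbra_conjTranspose]

theorem kb_empty (a b : Q → Bool → ℂ) : kb (∅ : Finset Q) a b = 1 := by
  unfold kb
  simpa using tensorMat_one

/-- Vectors of a family are unit vectors on `T`. -/
def UnitOn (T : Finset Q) (a : Q → Bool → ℂ) : Prop := ∀ q ∈ T, ip (a q) (a q) = 1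

theorem kb_idem {T : Finset Q} {a : Q → Bool → ℂ} (h : UnitOn T a) :
    kb T a a * kb T a a = kb T a a := by
  rw [kb_mul, Finset.prod_congr rfl h]
  simp

/-- Merge two families: on `T` use `a`, elsewhere use `c`. -/
def merge (T : Finset Q) (a c : Q → Bool → ℂ) : Q → Bool → ℂ :=
  fun q => if q ∈ T then a q else c q

theorem kb_mul_disjoint {T T' : Finset Q} (h : Disjoint T T') (a b c d : Q → Bool → ℂ) :
    kb T a b * kb T' c d = kb (T ∪ T') (merge T a c) (merge T b d) := by
  unfold kb
  rw [tensorMat_mul]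
  apply tensorMat_congr
  intro q
  by_cases hq : q ∈ T
  · have hq' : q ∉ T' := Finset.disjoint_left.mp h hq
    simp [hq, hq', merge]
  · by_cases hq' : q ∈ T'
    · simp [hq, hq', merge]
    · simp [hq, hq', merge]

theorem kb_comm_disjoint {T T' : Finset Q} (h : Disjoint T T') (a b c d : Q → Bool → ℂ) :
    kb T a b * kb T' c d = kb T' c d * kb T a b := by
  unfold kb
  rw [tensorMat_mul, tensorMat_mul]
  apply tensorMat_congr
  intro q
  by_cases hq : q ∈ T
  · have hq' : q ∉ T' := Finset.disjoint_left.mp h hq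
    simp [hq, hq']
  · by_cases hq' : q ∈ T' <;> simp [hq, hq']

/-- Operators in the span of product operators that are the identity outside `T`. -/
noncomputable def SpanOn (T : Finset Q) : Submodule ℂ (Matrix (Q → Bool) (Q → Bool) ℂ) :=
  Submodule.span ℂ {X | ∃ B : Q → Matrix Bool Bool ℂ, (∀ q, q ∉ T → B q = 1) ∧ X = tensorMat B}

theorem tensorMat_mem_spanOn {T : Finset Q} {B : Q → Matrix Bool Bool ℂ}
    (h : ∀ q, q ∉ T → B q = 1) : tensorMat B ∈ SpanOn T :=
  Submodule.subset_span ⟨B, h, rfl⟩

theorem one_mem_spanOn (T : Finset Q) : (1 : Matrix (Q → Bool) (Q → Bool) ℂ) ∈ SpanOn T := by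
  rw [← tensorMat_one]
  exact tensorMat_mem_spanOn (fun _ _ => rfl)

theorem kb_mem_spanOn {T T' : Finset Q} (h : T ⊆ T') (a b : Q → Bool → ℂ) :
    kb T a b ∈ SpanOn T' := by
  apply tensorMat_mem_spanOn
  intro q hq
  simp [show q ∉ T from fun hh => hq (h hh)]

theorem spanOn_mono {T T' : Finset Q} (h : T ⊆ T') : SpanOn T ≤ SpanOn T' := by
  apply Submodule.span_mono
  rintro X ⟨B, hB, rfl⟩
  exact ⟨B, fun q hq => hB q (fun hh => hq (h hh)), rfl⟩

theorem mul_mem_spanOn {T : Finset Q} {X Y : Matrix (Q → Bool) (Q → Bool) ℂ}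
    (hX : X ∈ SpanOn T) (hY : Y ∈ SpanOn T) : X * Y ∈ SpanOn T := by
  induction hX using Submodule.span_induction with
  | mem X hX =>
    obtain ⟨B, hB, rfl⟩ := hX
    induction hY using Submodule.span_induction with
    | mem Y hY =>
      obtain ⟨B', hB', rfl⟩ := hY
      rw [tensorMat_mul]
      apply tensorMat_mem_spanOn
      intro q hq
      simp [hB q hq, hB' q hq]
    | zero => simp
    | add x y _ _ hx hy => rw [mul_add]; exact Submodule.add_mem _ hx hy
    | smul c x _ hx => rw [mul_smul_comm]; exact Submodule.smul_mem _ c hx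
  | zero => simp
  | add x y _ _ hx hy => rw [add_mul]; exact Submodule.add_mem _ hx hy
  | smul c x _ hx => rw [smul_mul_assoc]; exact Submodule.smul_mem _ c hx

theorem commute_spanOn {T T' : Finset Q} (h : Disjoint T T')
    {X Y : Matrix (Q → Bool) (Q → Bool) ℂ} (hX : X ∈ SpanOn T) (hY : Y ∈ SpanOn T') :
    X * Y = Y * X := by
  induction hX using Submodule.span_induction with
  | mem X hX =>
    obtain ⟨B, hB, rfl⟩ := hX
    induction hY using Submodule.span_induction with
    | mem Y hY =>
      obtain ⟨B', hB', rfl⟩ := hY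
      rw [tensorMat_mul, tensorMat_mul]
      apply tensorMat_congr
      intro q
      by_cases hq : q ∈ T
      · have hq' : q ∉ T' := Finset.disjoint_left.mp h hq
        simp [hB' q hq']
      · simp [hB q hq]
    | zero => simp
    | add x y _ _ hx hy => rw [mul_add, add_mul, hx, hy]
    | smul c x _ hx => rw [mul_smul_comm, smul_mul_assoc, hx]
  | zero => simp
  | add x y _ _ hx hy => rw [add_mul, mul_add, hx, hy]
  | smul c x _ hx => rw [smul_mul_assoc, mul_smul_comm, hx]

theorem conjTranspose_mem_spanOn {T : Finset Q} {X : Matrix (Q → Bool) (Q → Bool) ℂ}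
    (hX : X ∈ SpanOn T) : Xᴴ ∈ SpanOn T := by
  induction hX using Submodule.span_induction with
  | mem X hX =>
    obtain ⟨B, hB, rfl⟩ := hX
    rw [tensorMat_conjTranspose]
    apply tensorMat_mem_spanOn
    intro q hq
    simp [hB q hq]
  | zero => simp
  | add x y _ _ hx hy => rw [conjTranspose_add]; exact Submodule.add_mem _ hx hy
  | smul c x _ hx => rw [conjTranspose_smul]; exact Submodule.smul_mem _ _ hx

end Vale.Agent.Lib.P368
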