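import Vale.Agent.Lib.P368.Gates

/-!
The last layer: only one gate matters, and it gives three product projectors.
-/

set_option linter.unusedSectionVars false
set_option linter.unusedSimpArgs false
set_option linter.unusedVariables false

namespace Vale.Agent.Lib.P368

open Matrix
open scoped Matrix.Norms.L2Operator ComplexConjugate

section General

variable {Q : Type*} [Fintype Q] [DecidableEq Q]

theorem layer_single_site (L : List (Refl Q)) (hL : L.Pairwise (fun g h => Disjoint g.T h.T))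
    (m : Q) (μ : Q → Bool → ℂ) :
    ((layerOp L)ᴴ * kb {m} μ μ * layerOp L = kb {m} μ μ) ∨
      ∃ g ∈ L, m ∈ g.T ∧
        (layerOp L)ᴴ * kb {m} μ μ * layerOp L = g.op * kb {m} μ μ * g.op := by
  induction L with
  | nil =>
    left
    simp [layerOp]
  | cons g L ih =>
    rw [List.pairwise_cons] at hL
    obtain ⟨hg, hL'⟩ := hL
    have hsub : ∀ h ∈ L, h.T ⊆ g.Tᶜ := by
      intro h hh q hq
      simp only [Finset.mem_compl]
      exact fun hq' => Finset.disjoint_left.mp (hg h hh) hq' hq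
    set QL := layerOp L with hQL
    have hQLmem : QL ∈ SpanOn g.Tᶜ := layerOp_mem hsub
    have hQLsmem : QLᴴ ∈ SpanOn g.Tᶜ := conjTranspose_mem_spanOn hQLmem
    have h1 : layerOp (g :: L) = g.op * QL := by simp [layerOp, hQL]
    rw [h1, conjTranspose_mul, g.op_conj]
    by_cases hm : m ∈ g.T
    · right
      refine ⟨g, by simp, hm, ?_⟩
      have hXmem : g.op * kb {m} μ μ * g.op ∈ SpanOn g.T :=
        mul_mem_spanOn (mul_mem_spanOn g.op_mem
          (kb_mem_spanOn (by simpa using hm) _ _)) g.op_mem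
      have hcomm : (g.op * kb {m} μ μ * g.op) * QLᴴ = QLᴴ * (g.op * kb {m} μ μ * g.op) :=
        commute_spanOn disjoint_compl_right hXmem hQLsmem
      have hQ : QLᴴ * QL = 1 := layerOp_unitary L
      calc QLᴴ * g.op * kb {m} μ μ * (g.op * QL)
          = (QLᴴ * (g.op * kb {m} μ μ * g.op)) * QL := by simp only [Matrix.mul_assoc]
        _ = ((g.op * kb {m} μ μ * g.op) * QLᴴ) * QL := by rw [hcomm]
        _ = (g.op * kb {m} μ μ * g.op) * (QLᴴ * QL) := by rw [Matrix.mul_assoc]
        _ = g.op * kb {m} μ μ * g.op := by rw [hQ, Matrix.mul_one]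
    · have hdisj : Disjoint g.T {m} := by simpa using hm
      have hcomm : g.op * kb {m} μ μ = kb {m} μ μ * g.op :=
        commute_spanOn hdisj g.op_mem (kb_mem_spanOn (Finset.Subset.refl _) _ _)
      have h2 : QLᴴ * g.op * kb {m} μ μ * (g.op * QL) = QLᴴ * kb {m} μ μ * QL := by
        calc QLᴴ * g.op * kb {m} μ μ * (g.op * QL)
            = QLᴴ * (g.op * kb {m} μ μ) * (g.op * QL) := by simp only [Matrix.mul_assoc]
          _ = QLᴴ * (kb {m} μ μ * g.op) * (g.op * QL) := by rw [hcomm]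
          _ = QLᴴ * kb {m} μ μ * (g.op * g.op) * QL := by simp only [Matrix.mul_assoc]
          _ = QLᴴ * kb {m} μ μ * QL := by rw [g.op_sq, Matrix.mul_one]
      rw [h2]
      rcases ih hL' with h | ⟨g', hg', hmg', h⟩
      · left; exact h
      · right
        exact ⟨g', by simp [hg'], hmg', h⟩

/-- The reflection on one site as a product operator. -/
theorem one_sub_kb_single (m : Q) (a b : Q → Bool → ℂ) (c : ℂ) :
    1 - c • kb {m} a b =
      tensorMat (fun q => if q = m then 1 - c • ketbra (a m) (b m) else 1) := by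
  ext s t
  simp only [Matrix.sub_apply, Matrix.smul_apply, smul_eq_mul]
  have h1 : (1 : Matrix (Q → Bool) (Q → Bool) ℂ) s t =
      tensorMat (fun _ : Q => (1 : Matrix Bool Bool ℂ)) s t := by rw [tensorMat_one]
  have h2 : tensorMat (fun _ : Q => (1 : Matrix Bool Bool ℂ)) s t =
      (1 : Matrix Bool Bool ℂ) (s m) (t m) *
        ∏ q ∈ ({m}ᶜ : Finset Q), (1 : Matrix Bool Bool ℂ) (s q) (t q) := by
    exact Fintype.prod_eq_mul_prod_compl m _
  have h3 : kb {m} a b s t = ketbra (a m) (b m) (s m) (t m) *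
        ∏ q ∈ ({m}ᶜ : Finset Q), (1 : Matrix Bool Bool ℂ) (s q) (t q) := by
    have hk : kb {m} a b s t = ∏ q, (if q ∈ ({m} : Finset Q) then ketbra (a q) (b q) else 1 :
        Matrix Bool Bool ℂ) (s q) (t q) := rfl
    rw [hk, Fintype.prod_eq_mul_prod_compl m]
    congr 1
    · simp
    · refine Finset.prod_congr rfl (fun q hq => ?_)
      have hq' : q ≠ m := by simpa using hq
      simp [hq']
  have h4 : tensorMat (fun q => if q = m then 1 - c • ketbra (a m) (b m) else 1) s t =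
      (1 - c • ketbra (a m) (b m)) (s m) (t m) *
        ∏ q ∈ ({m}ᶜ : Finset Q), (1 : Matrix Bool Bool ℂ) (s q) (t q) := by
    have hk : tensorMat (fun q => if q = m then 1 - c • ketbra (a m) (b m) else 1) s t =
        ∏ q, (if q = m then 1 - c • ketbra (a m) (b m) else 1 :
        Matrix Bool Bool ℂ) (s q) (t q) := rfl
    rw [hk, Fintype.prod_eq_mul_prod_compl m]
    congr 1
    · simp
    · refine Finset.prod_congr rfl (fun q hq => ?_)
      have hq' : q ≠ m := by simpa using hq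
      simp [hq']
  rw [h1, h2, h3, h4]
  simp only [Matrix.sub_apply, Matrix.smul_apply, smul_eq_mul]
  ring

theorem ketbra_self_idem {a : Bool → ℂ} (h : ip a a = 1) : ketbra a a * ketbra a a = ketbra a a := by
  rw [ketbra_mul, h, one_smul]

/-- One gate acting on a one-site projector gives three product projectors. -/
theorem top_gate (g : Refl Q) {m : Q} (hm : m ∈ g.T) {μ : Q → Bool → ℂ} (hμ : UnitOn {m} μ) :
    ∃ φ1 φ2 : Q → Bool → ℂ, UnitOn g.T φ1 ∧ UnitOn g.T φ2 ∧
      g.op * kb {m} μ μ * g.op = kb {m} μ μ - kb g.T φ1 φ1 + kb g.T φ2 φ2 := by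
  set S : Finset Q := {m} with hS
  have hST : S ⊆ g.T := by simpa [hS] using hm
  set E := g.T \ S with hE
  set p := kb E g.r g.r with hp
  set R := kb S g.r g.r with hR
  set A := kb S μ μ with hA
  have hdisj : Disjoint S E := Finset.disjoint_sdiff
  have hrE : UnitOn E g.r := g.unit.mono Finset.sdiff_subset
  have hop : g.op = 1 - (2 : ℂ) • (R * p) := by
    unfold Refl.op
    rw [kb_split hST g.r]
  have hpA : p * A = A * p := (kb_comm_disjoint hdisj _ _ _ _).symm
  have hpR : p * R = R * p := (kb_comm_disjoint hdisj _ _ _ _).symm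
  have hpp : p * p = p := kb_idem hrE
  have hX : g.op * A * g.op = A * (1 - p) + ((1 - (2 : ℂ) • R) * A * (1 - (2 : ℂ) • R)) * p := by
    rw [hop]
    exact gate_conj_decomp R p A hpA hpR hpp
  -- the site operator
  have hrm : ip (g.r m) (g.r m) = 1 := g.unit m hm
  set gm : Matrix Bool Bool ℂ := 1 - (2 : ℂ) • ketbra (g.r m) (g.r m) with hgm
  have hgmh : gmᴴ = gm := by
    rw [hgm, conjTranspose_sub, conjTranspose_one, conjTranspose_smul, ketbra_conjTranspose]
    simp
  have hgm2 : gm * gm = 1 := by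
    have h4 : gm * gm = 1 - (4 : ℂ) • ketbra (g.r m) (g.r m) +
        (4 : ℂ) • (ketbra (g.r m) (g.r m) * ketbra (g.r m) (g.r m)) := by
      rw [hgm]
      simp only [mul_sub, sub_mul, one_mul, mul_one, smul_mul_assoc, mul_smul_comm, smul_smul]
      module
    rw [h4, ketbra_self_idem hrm]
    module
  set V : Q → Matrix Bool Bool ℂ := fun q => if q = m then gm else 1 with hV
  have hV1 : ∀ q, (V q)ᴴ * V q = 1 := by
    intro q
    by_cases hq : q = m
    · simp only [hV, hq, if_true, hgmh, hgm2]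
    · simp [hV, hq]
  have hV2 : ∀ q, V q * (V q)ᴴ = 1 := by
    intro q
    by_cases hq : q = m
    · simp only [hV, hq, if_true, hgmh, hgm2]
    · simp [hV, hq]
  have hGJ : 1 - (2 : ℂ) • R = tensorMat V := by
    rw [hR, hS, one_sub_kb_single]
  have hVh : (tensorMat V)ᴴ = tensorMat V := by
    rw [tensorMat_conjTranspose]
    apply tensorMat_congr
    intro q
    by_cases hq : q = m
    · simp only [hV, hq, if_true, hgmh]
    · simp [hV, hq]
  set μ' := conjKets V μ with hμ'
  have hμ'u : UnitOn S μ' := conjKets_unit hV2 hμ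
  have hW : (1 - (2 : ℂ) • R) * A * (1 - (2 : ℂ) • R) = kb S μ' μ' := by
    rw [hGJ]
    have := tensor_conj_kb hV1 S μ μ
    rwa [hVh] at this
  have hunion : S ∪ E = g.T := Finset.union_sdiff_of_subset hST
  refine ⟨merge S μ g.r, merge S μ' g.r, ?_, ?_, ?_⟩
  · intro q hq
    by_cases hqS : q ∈ S
    · simp only [merge, hqS, if_true]
      exact hμ q hqS
    · simp only [merge, hqS, if_false]
      exact g.unit q hq
  · intro q hq
    by_cases hqS : q ∈ S
    · simp only [merge, hqS, if_true]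
      exact hμ'u q hqS
    · simp only [merge, hqS, if_false]
      exact g.unit q hq
  · rw [hX, hW]
    have e1 : A * p = kb g.T (merge S μ g.r) (merge S μ g.r) := by
      rw [hA, hp, kb_mul_disjoint hdisj, hunion]
    have e2 : kb S μ' μ' * p = kb g.T (merge S μ' g.r) (merge S μ' g.r) := by
      rw [hp, kb_mul_disjoint hdisj, hunion]
    rw [Matrix.mul_sub, Matrix.mul_one, e1, e2]

end General

section Fourier

variable {n a : ℕ}

theorem half_pow_le_of_le {e k : ℕ} (h : k ≤ e) : (1 / 2 : ℝ) ^ e ≤ (1 / 2) ^ k :=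
  pow_le_pow_of_le_one (by norm_num) (by norm_num) h

/-- One term. -/
theorem one_term_bound (L : List (Refl (Fin n ⊕ Fin a)))
    (hL : L.Pairwise (fun g h => Disjoint g.T h.T)) {S : Finset (Fin n ⊕ Fin a)}
    {φ : Fin n ⊕ Fin a → Bool → ℂ} (hφ : UnitOn S φ) :
    ‖FT Finset.univ ((layerOp L)ᴴ * kb S φ φ * layerOp L)‖ ≤ (1 / 2) ^ ((n + 1) / 2) := by
  obtain ⟨e, he1, he2, -⟩ := claim L hL Finset.univ S φ hφ
  have hcard : (Finset.univ : Finset (Fin n)).card = n := by simp
  rw [hcard] at he1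
  exact he2.trans (half_pow_le_of_le (by omega))

/-- Three terms. -/
theorem three_term_bound (L : List (Refl (Fin n ⊕ Fin a)))
    (hL : L.Pairwise (fun g h => Disjoint g.T h.T)) (hn : 5 ≤ n) {m : Fin n ⊕ Fin a}
    {μ : Fin n ⊕ Fin a → Bool → ℂ} (hμ : UnitOn {m} μ) {T : Finset (Fin n ⊕ Fin a)}
    {φ1 φ2 : Fin n ⊕ Fin a → Bool → ℂ} (h1 : UnitOn T φ1) (h2 : UnitOn T φ2) :
    ‖FT Finset.univ ((layerOp L)ᴴ * (kb {m} μ μ - kb T φ1 φ1 + kb T φ2 φ2) * layerOp L)‖ ≤
      2 * (1 / 2) ^ ((n + 1) / 2) := by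
  have hexp : (layerOp L)ᴴ * (kb {m} μ μ - kb T φ1 φ1 + kb T φ2 φ2) * layerOp L =
      (layerOp L)ᴴ * kb {m} μ μ * layerOp L - (layerOp L)ᴴ * kb T φ1 φ1 * layerOp L +
        (layerOp L)ᴴ * kb T φ2 φ2 * layerOp L := by
    simp only [mul_add, mul_sub, add_mul, sub_mul]
  rw [hexp, FT_add, FT_sub]
  have hcard : (Finset.univ : Finset (Fin n)).card = n := by simp
  obtain ⟨e1, he11, he12, he13⟩ := claim L hL Finset.univ {m} μ hμ
  obtain ⟨e2, he21, he22, he23⟩ := claim L hL Finset.univ T φ1 h1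
  obtain ⟨e3, he31, he32, he33⟩ := claim L hL Finset.univ T φ2 h2
  rw [hcard] at he11 he21 he31 he13 he23 he33
  set F1 := FT Finset.univ ((layerOp L)ᴴ * kb {m} μ μ * layerOp L) with hF1
  set F2 := FT Finset.univ ((layerOp L)ᴴ * kb T φ1 φ1 * layerOp L) with hF2
  set F3 := FT Finset.univ ((layerOp L)ᴴ * kb T φ2 φ2 * layerOp L) with hF3
  have hb2 : ‖F2‖ ≤ (1 / 2) ^ ((n + 1) / 2) := he22.trans (half_pow_le_of_le (by omega))
  have hb3 : ‖F3‖ ≤ (1 / 2) ^ ((n + 1) / 2) := he32.trans (half_pow_le_of_le (by omega))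
  have hzero : F1 = 0 ∨ ∃ g ∈ L, ∀ i : Fin n, Sum.inl i ∈ g.T := by
    rcases layer_single_site L hL m μ with h | ⟨g, hg, hmg, h⟩
    · left
      -- some input differs from m
      have hi : ∃ i : Fin n, (Sum.inl i : Fin n ⊕ Fin a) ∉ ({m} : Finset (Fin n ⊕ Fin a)) := by
        by_cases hi0 : (Sum.inl (⟨0, by omega⟩ : Fin n) : Fin n ⊕ Fin a) = m
        · refine ⟨⟨1, by omega⟩, ?_⟩
          intro hh
          have h5 := Finset.mem_singleton.mp hh
          rw [← hi0] at h5
          simp at h5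
        · exact ⟨⟨0, by omega⟩, by simpa using hi0⟩
      obtain ⟨i, hi⟩ := hi
      rw [hF1, h]
      exact FT_eq_zero_of_not_mem (Finset.mem_univ i) hi (kb_mem_spanOn (Finset.Subset.refl _) _ _)
    · by_cases hall : ∀ i : Fin n, Sum.inl i ∈ g.T
      · right
        exact ⟨g, hg, hall⟩
      · left
        obtain ⟨i, hi⟩ := not_forall.mp hall
        rw [hF1, h]
        refine FT_eq_zero_of_not_mem (Finset.mem_univ i) hi ?_
        exact mul_mem_spanOn (mul_mem_spanOn g.op_mem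
          (kb_mem_spanOn (by simpa using hmg) _ _)) g.op_mem
  rcases hzero with h0 | ⟨g, hg, hall⟩
  · rw [h0, zero_sub]
    calc ‖-F2 + F3‖ ≤ ‖-F2‖ + ‖F3‖ := norm_add_le _ _
      _ = ‖F3‖ + ‖F2‖ := by rw [norm_neg, add_comm]
      _ ≤ (1 / 2) ^ ((n + 1) / 2) + (1 / 2) ^ ((n + 1) / 2) := add_le_add hb3 hb2
      _ = 2 * (1 / 2) ^ ((n + 1) / 2) := by ring
  · have h1' := he13 g hg (fun i _ => hall i)
    have h2' := he23 g hg (fun i _ => hall i)
    have h3' := he33 g hg (fun i _ => hall i)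
    have hsmall : (1 / 2 : ℝ) ^ (n - 1) ≤ (1 / 2) * (1 / 2) ^ ((n + 1) / 2) := by
      rw [← pow_succ']
      exact half_pow_le_of_le (by omega)
    have hb1' : ‖F1‖ ≤ (1 / 2) ^ (n - 1) := he12.trans (half_pow_le_of_le (by omega))
    have hb2' : ‖F2‖ ≤ (1 / 2) ^ (n - 1) := he22.trans (half_pow_le_of_le (by omega))
    have hb3' : ‖F3‖ ≤ (1 / 2) ^ (n - 1) := he32.trans (half_pow_le_of_le (by omega))
    have hnn : (0 : ℝ) ≤ (1 / 2) ^ ((n + 1) / 2) := by positivity
    calc ‖F1 - F2 + F3‖ ≤ ‖F1 - F2‖ + ‖F3‖ := norm_add_le _ _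
      _ ≤ ‖F1‖ + ‖F2‖ + ‖F3‖ := by gcongr; exact norm_sub_le _ _
      _ ≤ 3 * ((1 / 2) * (1 / 2) ^ ((n + 1) / 2)) := by linarith
      _ ≤ 2 * (1 / 2) ^ ((n + 1) / 2) := by linarith

end Fourier

end Vale.Agent.Lib.P368
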